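import Mathlib
import Crest.Prelude.Def_AsymptoticConvexity

/-!
Core lemmas for result 125 (S0166-S0169).
-/

set_option autoImplicit false

namespace Crest.Agent.R125

open Crest.AnalysisR

/-- A closed subspace of finite codimension is `C`-approximately cut out by finitely many
continuous functionals. -/
theorem exists_near_of_functionals {X : Type*} [NormedAddCommGroup X] [NormedSpace ℝ X]
    (S : Submodule ℝ X) (hS : IsClosed (S : Set X)) (hfin : FiniteDimensional ℝ (X ⧸ S)) :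
    ∃ (s : Finset (X →L[ℝ] ℝ)) (C : ℝ), 0 < C ∧
      ∀ d : X, ∃ y ∈ S, ‖d - y‖ ≤ C * ∑ φ ∈ s, |φ d| := by
  classical
  obtain ⟨f, hf⟩ := Submodule.ClosedComplemented.of_finiteDimensional_quotient hS
  -- the complementary projection
  set Q : X →L[ℝ] X := ContinuousLinearMap.id ℝ X - S.subtypeL.comp f with hQ
  have hQS : ∀ x ∈ S, Q x = 0 := by
    intro x hx
    have := hf ⟨x, hx⟩
    simp [hQ, this]
  have hQd : ∀ d : X, d - (f d : X) = Q d := by
    intro d; simp [hQ]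
  have hle : S ≤ LinearMap.ker Q.toLinearMap := by
    intro x hx
    simpa using hQS x hx
  -- range is finite-dimensional
  have hfr : FiniteDimensional ℝ (LinearMap.range Q.toLinearMap) := by
    have h1 : LinearMap.range Q.toLinearMap = LinearMap.range (S.liftQ Q.toLinearMap hle) := by
      rw [Submodule.range_liftQ]
    rw [h1]
    infer_instance
  set G := LinearMap.range Q.toLinearMap with hG
  let b := Module.finBasis ℝ G
  let Q' : X →L[ℝ] G := Q.codRestrict G (fun x => LinearMap.mem_range_self _ x)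
  let φ : Fin (Module.finrank ℝ G) → (X →L[ℝ] ℝ) := fun i =>
    (LinearMap.toContinuousLinearMap (b.coord i)).comp Q'
  refine ⟨Finset.univ.image φ, 1 + ∑ i, ‖(b i : X)‖, by positivity, fun d => ⟨f d, (f d).2, ?_⟩⟩
  rw [hQd]
  have hsum : Q d = ∑ i, (φ i d) • (b i : X) := by
    have h2 := b.sum_repr (Q' d)
    have h3 : ((∑ i, (b.repr (Q' d)) i • b i : G) : X) = Q d := by
      rw [h2]; rfl
    rw [← h3]
    push_cast
    rfl
  have hbd : ∀ i, |φ i d| ≤ ∑ ψ ∈ Finset.univ.image φ, |ψ d| := by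
    intro i
    exact Finset.single_le_sum (f := fun ψ : X →L[ℝ] ℝ => |ψ d|) (fun _ _ => abs_nonneg _)
      (Finset.mem_image_of_mem φ (Finset.mem_univ i))
  have hnn : 0 ≤ ∑ ψ ∈ Finset.univ.image φ, |ψ d| := Finset.sum_nonneg fun _ _ => abs_nonneg _
  calc ‖Q d‖ = ‖∑ i, (φ i d) • (b i : X)‖ := by rw [hsum]
    _ ≤ ∑ i, ‖(φ i d) • (b i : X)‖ := norm_sum_le _ _
    _ = ∑ i, |φ i d| * ‖(b i : X)‖ := by
        refine Finset.sum_congr rfl fun i _ => ?_
        rw [norm_smul, Real.norm_eq_abs]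
    _ ≤ ∑ i, (∑ ψ ∈ Finset.univ.image φ, |ψ d|) * ‖(b i : X)‖ := by
        refine Finset.sum_le_sum fun i _ => ?_
        exact mul_le_mul_of_nonneg_right (hbd i) (norm_nonneg _)
    _ = (∑ i, ‖(b i : X)‖) * ∑ ψ ∈ Finset.univ.image φ, |ψ d| := by
        rw [← Finset.mul_sum, mul_comm]
    _ ≤ (1 + ∑ i, ‖(b i : X)‖) * ∑ ψ ∈ Finset.univ.image φ, |ψ d| := by
        refine mul_le_mul_of_nonneg_right (by linarith) hnn

/-- A functional tends to zero along a sequence with an upper `ℓ²` estimate. -/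
theorem eventually_small_of_l2_upper {X : Type*} [NormedAddCommGroup X] [NormedSpace ℝ X]
    (d : ℕ → X) (C : ℝ)
    (hd : ∀ (A : Finset ℕ) (ε : ℕ → ℝ), (∀ n, |ε n| ≤ 1) →
      ‖∑ n ∈ A, ε n • d n‖ ≤ C * Real.sqrt A.card)
    (φ : X →L[ℝ] ℝ) (η : ℝ) (hη : 0 < η) :
    ∃ n₀ : ℕ, ∀ n, n₀ ≤ n → |φ (d n)| ≤ η := by
  classical
  by_contra hcon
  push Not at hcon
  -- infinitely many bad indices
  have hinf : Set.Infinite {n : ℕ | η < |φ (d n)|} := by
    rw [← Nat.frequently_atTop_iff_infinite, Filter.frequently_atTop]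
    intro a
    obtain ⟨n, hn, h⟩ := hcon a
    exact ⟨n, hn, h⟩
  obtain ⟨k, hk⟩ := exists_nat_gt ((‖φ‖ * C / η) ^ 2)
  obtain ⟨A, hA, hcard⟩ := hinf.exists_subset_card_eq (k + 1)
  let ε : ℕ → ℝ := fun n => SignType.sign (φ (d n))
  have hε : ∀ n, |ε n| ≤ 1 := by
    intro n
    rcases lt_trichotomy (φ (d n)) 0 with h | h | h
    · simp [ε, sign_neg h]
    · simp [ε, h]
    · simp [ε, sign_pos h]
  have h1 := hd A ε hε
  have h2 : φ (∑ n ∈ A, ε n • d n) = ∑ n ∈ A, |φ (d n)| := by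
    rw [map_sum]
    refine Finset.sum_congr rfl fun n _ => ?_
    rw [map_smul, smul_eq_mul]
    rcases lt_trichotomy (φ (d n)) 0 with h | h | h
    · simp [ε, sign_neg h, abs_of_neg h]
    · simp [ε, h]
    · simp [ε, sign_pos h, abs_of_pos h]
  have h3 : (A.card : ℝ) * η ≤ ∑ n ∈ A, |φ (d n)| := by
    rw [← nsmul_eq_mul]
    exact Finset.card_nsmul_le_sum A _ η fun n hn => le_of_lt (hA hn)
  have h4 : ∑ n ∈ A, |φ (d n)| ≤ ‖φ‖ * (C * Real.sqrt A.card) := by
    rw [← h2]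
    calc φ (∑ n ∈ A, ε n • d n) ≤ ‖φ (∑ n ∈ A, ε n • d n)‖ := Real.le_norm_self _
      _ ≤ ‖φ‖ * ‖∑ n ∈ A, ε n • d n‖ := φ.le_opNorm _
      _ ≤ ‖φ‖ * (C * Real.sqrt A.card) := mul_le_mul_of_nonneg_left h1 (norm_nonneg _)
  have hApos : (0 : ℝ) < A.card := by rw [hcard]; positivity
  have hsq : Real.sqrt A.card * Real.sqrt A.card = A.card := Real.mul_self_sqrt hApos.le
  have hsp : 0 < Real.sqrt A.card := Real.sqrt_pos.mpr hApos
  have h5 : Real.sqrt A.card * η ≤ ‖φ‖ * C := by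
    have : Real.sqrt A.card * (Real.sqrt A.card * η) ≤ Real.sqrt A.card * (‖φ‖ * C) := by
      calc Real.sqrt A.card * (Real.sqrt A.card * η) = (A.card : ℝ) * η := by rw [← mul_assoc, hsq]
        _ ≤ ‖φ‖ * (C * Real.sqrt A.card) := h3.trans h4
        _ = Real.sqrt A.card * (‖φ‖ * C) := by ring
    exact le_of_mul_le_mul_left this hsp
  have h6 : Real.sqrt A.card ≤ ‖φ‖ * C / η := by
    rw [le_div_iff₀ hη]; exact h5
  have h7 : (A.card : ℝ) ≤ (‖φ‖ * C / η) ^ 2 := by
    rw [← hsq, ← sq]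
    exact pow_le_pow_left₀ hsp.le h6 2
  rw [hcard] at h7
  push_cast at h7
  linarith

/-- A sequence along which functionals tend to zero is eventually close to every closed
finite-codimensional subspace. -/
theorem eventually_near_of_functionals {X : Type*} [NormedAddCommGroup X] [NormedSpace ℝ X]
    (d : ℕ → X)
    (hd : ∀ (φ : X →L[ℝ] ℝ) (η : ℝ), 0 < η → ∃ n₀ : ℕ, ∀ n, n₀ ≤ n → |φ (d n)| ≤ η)
    (S : Submodule ℝ X) (hS : IsClosed (S : Set X)) (hfin : FiniteDimensional ℝ (X ⧸ S))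
    (η : ℝ) (hη : 0 < η) :
    ∃ n₀ : ℕ, ∀ n, n₀ ≤ n → ∃ y ∈ S, ‖d n - y‖ ≤ η := by
  classical
  obtain ⟨s, C, hC, h⟩ := exists_near_of_functionals S hS hfin
  set η' : ℝ := η / (C * (s.card + 1)) with hη'
  have hη'pos : 0 < η' := by positivity
  choose n₀ hn₀ using fun φ : X →L[ℝ] ℝ => hd φ η' hη'pos
  refine ⟨s.sup n₀, fun n hn => ?_⟩
  obtain ⟨y, hy, hle⟩ := h (d n)
  refine ⟨y, hy, hle.trans ?_⟩
  have hsum : ∑ φ ∈ s, |φ (d n)| ≤ s.card * η' := by
    rw [← nsmul_eq_mul]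
    refine Finset.sum_le_card_nsmul s _ η' fun φ hφ => ?_
    exact hn₀ φ n ((Finset.le_sup hφ).trans hn)
  calc C * ∑ φ ∈ s, |φ (d n)| ≤ C * (s.card * η') := mul_le_mul_of_nonneg_left hsum hC.le
    _ ≤ C * ((s.card + 1) * η') := by
        refine mul_le_mul_of_nonneg_left ?_ hC.le
        nlinarith
    _ = η := by
        rw [hη']; field_simp

/-- A sequence with an upper `ℓ²` estimate is eventually close to every closed
finite-codimensional subspace. -/
theorem eventually_near_of_l2_upper {X : Type*} [NormedAddCommGroup X] [NormedSpace ℝ X]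
    (d : ℕ → X) (C : ℝ)
    (hd : ∀ (A : Finset ℕ) (ε : ℕ → ℝ), (∀ n, |ε n| ≤ 1) →
      ‖∑ n ∈ A, ε n • d n‖ ≤ C * Real.sqrt A.card)
    (S : Submodule ℝ X) (hS : IsClosed (S : Set X)) (hfin : FiniteDimensional ℝ (X ⧸ S))
    (η : ℝ) (hη : 0 < η) :
    ∃ n₀ : ℕ, ∀ n, n₀ ≤ n → ∃ y ∈ S, ‖d n - y‖ ≤ η :=
  eventually_near_of_functionals d (fun φ η hη => eventually_small_of_l2_upper d C hd φ η hη)
    S hS hfin η hη

/-- Unbundled version of the absorption lemma. -/
theorem not_auc_aux {X : Type*} [NormedAddCommGroup X] [NormedSpace ℝ X]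
    (K : ℕ → Set X) (M m δ : ℝ) (hm : 0 < m) (hδ : 0 < δ)
    (hK : ∀ j, ∀ x ∈ K j, ‖x‖ ≤ M) (hne : ∀ j, ∃ x ∈ K j, m ≤ ‖x‖)
    (hstep : ∀ j, ∀ x ∈ K (j + 1), ∀ S : Submodule ℝ X, IsClosed (S : Set X) →
      FiniteDimensional ℝ (X ⧸ S) → ∀ η : ℝ, 0 < η →
        ∃ z ∈ K j, ∃ y ∈ S, δ ≤ ‖z - x‖ ∧ ‖z - x - y‖ ≤ η)
    (N : X → ℝ) (hadd : ∀ x y : X, N (x + y) ≤ N x + N y)
    (hsmul : ∀ (a : ℝ) (x : X), N (a • x) = abs a * N x)
    (a b : ℝ) (ha : 0 < a) (hab : ∀ x : X, a * ‖x‖ ≤ N x ∧ N x ≤ b * ‖x‖)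
    (hauc : ∀ t : ℝ, 0 < t → ∃ c : ℝ, 0 < c ∧ ∀ x : X, N x = 1 → ∃ S : Submodule ℝ X,
      IsClosed (S : Set X) ∧ FiniteDimensional ℝ (X ⧸ S) ∧
      ∀ y ∈ S, N y = 1 → c ≤ N (x + t • y) - 1) : False := by
  -- basic facts
  have hN0 : ∀ x : X, 0 ≤ N x := fun x => (mul_nonneg ha.le (norm_nonneg x)).trans (hab x).1
  have hNneg : ∀ x : X, N (-x) = N x := by
    intro x
    have := hsmul (-1) x
    simpa using this
  have hsub : ∀ x y : X, N x ≤ N y + N (x - y) := by
    intro x y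
    have := hadd y (x - y)
    simpa using this
  have hsub' : ∀ x y : X, N x ≤ N y + N (y - x) := by
    intro x y
    have h1 := hsub x y
    have h2 : N (x - y) = N (y - x) := by rw [← hNneg (y - x), neg_sub]
    linarith
  have hb : 0 < b := by
    obtain ⟨x, -, hx⟩ := hne 0
    have hx0 : 0 < ‖x‖ := lt_of_lt_of_le hm hx
    have h1 := (hab x).1.trans (hab x).2
    have h2 : 0 < a * ‖x‖ := mul_pos ha hx0
    by_contra hb
    push Not at hb
    have : b * ‖x‖ ≤ 0 := mul_nonpos_of_nonpos_of_nonneg hb hx0.le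
    linarith
  have hMpos : 0 < M := by
    obtain ⟨x, hx, hmx⟩ := hne 0
    exact lt_of_lt_of_le hm (hmx.trans (hK 0 x hx))
  set B : ℝ := b * M with hB
  have hBpos : 0 < B := mul_pos hb hMpos
  have hNB : ∀ j, ∀ x ∈ K j, N x ≤ B := by
    intro j x hx
    exact (hab x).2.trans (mul_le_mul_of_nonneg_left (hK j x hx) hb.le)
  set t₀ : ℝ := (a * δ / 2) / B with ht₀
  have ht₀pos : 0 < t₀ := by positivity
  obtain ⟨c, hc, hauc'⟩ := hauc t₀ ht₀pos
  -- the key step
  have key : ∀ j, ∀ x ∈ K (j + 1), ∀ R : ℝ, 0 ≤ R → (∀ z ∈ K j, N z ≤ R) → N x * (1 + c) ≤ R := by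
    intro j x hx R hR hKR
    rcases (hN0 x).eq_or_lt with h0 | hpos
    · rw [← h0]; simpa using hR
    refine le_of_forall_pos_le_add fun e he => ?_
    set u : X := (N x)⁻¹ • x with hu
    have hNu : N u = 1 := by
      rw [hu, hsmul, abs_of_pos (inv_pos.mpr hpos), inv_mul_cancel₀ hpos.ne']
    obtain ⟨S, hScl, hSfd, hS⟩ := hauc' u hNu
    set η : ℝ := min (a * δ / 2 / b) (e / b) with hη
    have hηpos : 0 < η := lt_min (by positivity) (by positivity)
    obtain ⟨z, hz, y, hy, hzx, hzxy⟩ := hstep j x hx S hScl hSfd η hηpos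
    have hbη1 : b * η ≤ a * δ / 2 := by
      calc b * η ≤ b * (a * δ / 2 / b) := mul_le_mul_of_nonneg_left (min_le_left _ _) hb.le
        _ = a * δ / 2 := by field_simp
    have hbη2 : b * η ≤ e := by
      calc b * η ≤ b * (e / b) := mul_le_mul_of_nonneg_left (min_le_right _ _) hb.le
        _ = e := by field_simp
    have herr : N (z - x - y) ≤ b * η :=
      (hab _).2.trans (mul_le_mul_of_nonneg_left hzxy hb.le)
    have hNy : a * δ / 2 ≤ N y := by
      have h1 := hsub (z - x) y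
      have h2 : a * δ ≤ N (z - x) :=
        (mul_le_mul_of_nonneg_left hzx ha.le).trans (hab _).1
      linarith
    have hNypos : 0 < N y := lt_of_lt_of_le (by positivity) hNy
    set v : X := (N y)⁻¹ • y with hv
    have hvS : v ∈ S := S.smul_mem _ hy
    have hNv : N v = 1 := by
      rw [hv, hsmul, abs_of_pos (inv_pos.mpr hNypos), inv_mul_cancel₀ hNypos.ne']
    have h1 := hS v hvS hNv
    set t : ℝ := N y / N x with ht
    have htpos : 0 < t := by positivity
    have htt : t₀ ≤ t := by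
      rw [ht₀, ht, div_le_div_iff₀ hBpos hpos]
      have h3 := hNB (j + 1) x hx
      have h4 : 0 ≤ a * δ / 2 := by positivity
      calc a * δ / 2 * N x ≤ a * δ / 2 * B := mul_le_mul_of_nonneg_left h3 h4
        _ ≤ N y * B := mul_le_mul_of_nonneg_right hNy hBpos.le
    set r : ℝ := t₀ / t with hr
    have hrpos : 0 < r := by positivity
    have hr1 : r ≤ 1 := by rw [hr]; exact (div_le_one htpos).mpr htt
    have hrt : r * t = t₀ := by rw [hr]; field_simp
    have hconv : N (u + t₀ • v) ≤ (1 - r) + r * N (u + t • v) := by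
      have h5 : u + t₀ • v = (1 - r) • u + r • (u + t • v) := by
        have h51 : t₀ • v = r • (t • v) := by rw [smul_smul r t v, hrt]
        rw [h51]
        module
      calc N (u + t₀ • v) = N ((1 - r) • u + r • (u + t • v)) := by rw [h5]
        _ ≤ N ((1 - r) • u) + N (r • (u + t • v)) := hadd _ _
        _ = (1 - r) + r * N (u + t • v) := by
            rw [hsmul (1 - r) u, hsmul r (u + t • v), hNu,
              abs_of_nonneg (by linarith : 0 ≤ 1 - r), abs_of_pos hrpos]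
            ring
    have h6 : 1 + c ≤ N (u + t • v) := by
      have h7 : c ≤ r * (N (u + t • v) - 1) := by linarith
      have h8 : 0 ≤ N (u + t • v) - 1 := by
        by_contra hneg
        push Not at hneg
        have := mul_neg_of_pos_of_neg hrpos hneg
        linarith
      have h9 : r * (N (u + t • v) - 1) ≤ 1 * (N (u + t • v) - 1) :=
        mul_le_mul_of_nonneg_right hr1 h8
      linarith
    have h10 : x + y = N x • (u + t • v) := by
      rw [hu, hv, smul_add, smul_smul, smul_smul, smul_smul, mul_inv_cancel₀ hpos.ne', one_smul]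
      congr 1
      have : N x * t * (N y)⁻¹ = 1 := by
        rw [ht]; field_simp
      rw [this, one_smul]
    have h11 : N x * (1 + c) ≤ N (x + y) := by
      rw [h10, hsmul, abs_of_pos hpos]
      exact mul_le_mul_of_nonneg_left h6 hpos.le
    have h12 : N (x + y) ≤ N z + N (z - x - y) := by
      have := hsub' (x + y) z
      rwa [← sub_sub] at this
    have h13 := hKR z hz
    linarith
  -- iterate
  have hiter : ∀ j, ∀ x ∈ K j, N x * (1 + c) ^ j ≤ B := by
    intro j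
    induction j with
    | zero => intro x hx; simpa using hNB 0 x hx
    | succ j ih =>
      intro x hx
      have hpw : 0 < (1 + c) ^ j := by positivity
      have h1 := key j x hx (B / (1 + c) ^ j) (by positivity) (by
        intro z hz
        rw [le_div_iff₀ hpw]
        exact ih z hz)
      rw [le_div_iff₀ hpw] at h1
      calc N x * (1 + c) ^ (j + 1) = N x * (1 + c) * (1 + c) ^ j := by ring
        _ ≤ B := h1
  obtain ⟨j, hj⟩ := pow_unbounded_of_one_lt (B / (a * m)) (by linarith : (1 : ℝ) < 1 + c)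
  obtain ⟨x, hx, hmx⟩ := hne j
  have h1 := hiter j x hx
  have h2 : a * m ≤ N x := (mul_le_mul_of_nonneg_left hmx ha.le).trans (hab x).1
  have ham : 0 < a * m := mul_pos ha hm
  rw [div_lt_iff₀ ham] at hj
  have h3 : a * m * (1 + c) ^ j ≤ N x * (1 + c) ^ j :=
    mul_le_mul_of_nonneg_right h2 (by positivity)
  linarith

/-- Absorption lemma: if a family of bounded sets `K j` has, from every point of `K (j+1)`, a
`δ`-separated step into `K j` whose increment is as close as we like to a given closed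
finite-codimensional subspace, then no equivalent norm is asymptotically uniformly convex.
(For infinite trees take `K` constant.) -/
theorem not_isAUC_of_tree {X : Type} [nX : NormedAddCommGroup X] [sX : NormedSpace ℝ X]
    (cX : CompleteSpace X) (K : ℕ → Set X) (M m δ : ℝ) (hm : 0 < m) (hδ : 0 < δ)
    (hK : ∀ j, ∀ x ∈ K j, ‖x‖ ≤ M) (hne : ∀ j, ∃ x ∈ K j, m ≤ ‖x‖)
    (hstep : ∀ j, ∀ x ∈ K (j + 1), ∀ S : Submodule ℝ X, IsClosed (S : Set X) →
      FiniteDimensional ℝ (X ⧸ S) → ∀ η : ℝ, 0 < η →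
        ∃ z ∈ K j, ∃ y ∈ S, δ ≤ ‖z - x‖ ∧ ‖z - x - y‖ ≤ η)
    (N : X → ℝ) (hN : (RealBanach.mk X nX sX cX).IsEquivNorm N) :
    ¬ (RealBanach.mk X nX sX cX).IsAUC N := by
  intro hauc
  obtain ⟨hadd, hsmul, a, b, ha, hab⟩ := hN
  refine not_auc_aux K M m δ hm hδ hK hne hstep N hadd hsmul a b ha hab ?_
  intro t ht
  obtain ⟨c, hc, h⟩ := hauc t ht
  refine ⟨c, hc, fun x hx => ?_⟩
  obtain ⟨F, ⟨S, hSF, hFcl, hfd⟩, hF⟩ := h x hx
  refine ⟨S, ?_, hfd, fun y hy hNy => hF y ?_ hNy⟩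
  · rw [hSF]; exact hFcl
  · rw [← hSF]; exact hy

/-- If no equivalent norm is AUC then the space is infinite-dimensional. -/
theorem not_finiteDimensional_of_not_isAUC {X : Type} [nX : NormedAddCommGroup X]
    [sX : NormedSpace ℝ X] (cX : CompleteSpace X)
    (h : ∀ N : X → ℝ, (RealBanach.mk X nX sX cX).IsEquivNorm N →
      ¬ (RealBanach.mk X nX sX cX).IsAUC N) :
    ¬ FiniteDimensional ℝ X := by
  intro hfd
  refine h (fun x => ‖x‖) ?_ ?_
  · refine ⟨fun x y => norm_add_le x y, fun a x => ?_, 1, 1, one_pos, fun x => ?_⟩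
    · exact norm_smul a x
    · simp
  · intro t ht
    refine ⟨1, one_pos, fun x hx => ⟨((⊥ : Submodule ℝ X) : Set X), ⟨⊥, rfl, ?_, ?_⟩, ?_⟩⟩
    · simp
    · infer_instance
    · intro y hy hy1
      have hy0 : y = 0 := by simpa using hy
      exfalso
      rw [hy0] at hy1
      simp at hy1

end Crest.Agent.R125
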