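import Mathlib
import Crest.Prelude.Def_AsymptoticConvexity
import Crest.Prelude.Def_DaugavetL1

/-!
Daugavet spaces: in a real normed space with the Daugavet property, every `x` in the closed unit
ball is, modulo any closed finite-codimensional subspace, approximable by unit ball vectors `z`
which are almost `ℓ₁`-additive to a prescribed vector `w`.
-/

set_option autoImplicit false

namespace Crest.Agent.R125.Daugavet

open Crest.AnalysisR Crest.AnalysisR.L1Subspace

variable {V : Type*} [NormedAddCommGroup V] [NormedSpace ℝ V]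

/-- Adding multiples: if `‖v‖ = 1`, `‖u‖ ≤ 1` and `2 - e ≤ ‖v + u‖` then
`a + b - (max a b) e ≤ ‖a v + b u‖`. -/
lemma norm_combo_ge {u v : V} (hv : ‖v‖ ≤ 1) (hu : ‖u‖ ≤ 1) {e : ℝ}
    (h : 2 - e ≤ ‖v + u‖) {a b : ℝ} (ha : 0 ≤ a) (hb : 0 ≤ b) :
    a + b - (max a b) * e ≤ ‖a • v + b • u‖ := by
  rcases le_total b a with hab | hab
  · have h1 : a • v + b • u = a • (v + u) - (a - b) • u := by
      rw [smul_add, sub_smul]; abel
    have h2 : ‖a • (v + u)‖ - ‖(a - b) • u‖ ≤ ‖a • v + b • u‖ := by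
      rw [h1]; exact norm_sub_norm_le _ _
    rw [norm_smul, norm_smul, Real.norm_of_nonneg ha, Real.norm_of_nonneg (sub_nonneg.2 hab)] at h2
    rw [max_eq_left hab]
    nlinarith [mul_le_mul_of_nonneg_left h ha, mul_le_mul_of_nonneg_left hu (sub_nonneg.2 hab)]
  · have h1 : a • v + b • u = b • (v + u) - (b - a) • v := by
      rw [smul_add, sub_smul]; abel
    have h2 : ‖b • (v + u)‖ - ‖(b - a) • v‖ ≤ ‖a • v + b • u‖ := by
      rw [h1]; exact norm_sub_norm_le _ _
    rw [norm_smul, norm_smul, Real.norm_of_nonneg hb, Real.norm_of_nonneg (sub_nonneg.2 hab)] at h2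
    rw [max_eq_right hab]
    nlinarith [mul_le_mul_of_nonneg_left h hb, mul_le_mul_of_nonneg_left hv (sub_nonneg.2 hab)]

/-- Slice version of the Daugavet property. -/
lemma exists_mem_slice (hV : HasDaugavetProperty V) (w : V) (φ : V →L[ℝ] ℝ) (hφ : ‖φ‖ = 1)
    {s ε : ℝ} (hs : 0 ≤ s) (hε : 0 < ε) :
    ∃ z : V, ‖z‖ ≤ 1 ∧ 1 - ε < φ z ∧ ‖w‖ + s - ε ≤ ‖w + s • z‖ := by
  classical
  -- choose a unit vector in the direction of `w` (or any unit vector)
  have hnt : ∃ v : V, ‖v‖ = 1 ∧ w = ‖w‖ • v := by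
    by_cases hw : w = 0
    · have : Nontrivial V := by
        by_contra hcon
        rw [not_nontrivial_iff_subsingleton] at hcon
        have : φ = 0 := by
          ext x
          rw [Subsingleton.elim x 0]; simp
        rw [this, norm_zero] at hφ
        exact zero_ne_one hφ
      obtain ⟨v, hv⟩ := exists_norm_eq V (zero_le_one)
      exact ⟨v, hv, by simp [hw]⟩
    · refine ⟨‖w‖⁻¹ • w, ?_, ?_⟩
      · rw [norm_smul, norm_inv, norm_norm, inv_mul_cancel₀ (norm_ne_zero_iff.2 hw)]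
      · rw [smul_smul, mul_inv_cancel₀ (norm_ne_zero_iff.2 hw), one_smul]
  obtain ⟨v, hv, hwv⟩ := hnt
  set M : ℝ := max ‖w‖ s with hM
  have hM0 : 0 ≤ M := le_max_of_le_right hs
  set e : ℝ := ε / (2 * (M + 1)) with he
  have he0 : 0 < e := by positivity
  have hDn : ‖ContinuousLinearMap.id ℝ V + φ.smulRight v‖ = 2 := by
    rw [hV φ v, ContinuousLinearMap.norm_smulRight_apply, hφ, hv]; norm_num
  -- choose a vector almost attaining the norm
  have hex : ∃ u : V, ‖u‖ ≤ 1 ∧ 2 - e < ‖u + φ u • v‖ := by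
    by_contra hcon
    push Not at hcon
    have hle : ‖ContinuousLinearMap.id ℝ V + φ.smulRight v‖ ≤ max (2 - e) 0 := by
      refine ContinuousLinearMap.opNorm_le_of_unit_norm (le_max_right _ _) ?_
      intro x hx
      have := hcon x hx.le
      exact le_max_of_le_left (by simpa using this)
    rw [hDn] at hle
    rcases le_max_iff.1 hle with h | h
    · linarith
    · linarith
  obtain ⟨u, hu, hu2⟩ := hex
  -- make `φ u` nonnegative
  wlog hpos : 0 ≤ φ u generalizing u with H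
  · refine H (-u) (by simpa using hu) ?_ (by rw [map_neg]; linarith)
    rw [map_neg, neg_smul, ← neg_add, norm_neg]; exact hu2
  have h1 : ‖u + φ u • v‖ ≤ 1 + φ u := by
    calc ‖u + φ u • v‖ ≤ ‖u‖ + ‖φ u • v‖ := norm_add_le _ _
      _ ≤ 1 + φ u := by
        rw [norm_smul, hv, mul_one, Real.norm_of_nonneg hpos]; linarith
  have h2 : 1 - e < φ u := by linarith
  have h3 : φ u ≤ 1 := by
    have := φ.le_opNorm u
    rw [hφ, one_mul, Real.norm_of_nonneg hpos] at this
    linarith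
  have h4 : 2 - 2 * e ≤ ‖v + u‖ := by
    have h5 : v + u = (u + φ u • v) + (1 - φ u) • v := by
      rw [sub_smul, one_smul]; abel
    have h6 : ‖u + φ u • v‖ - ‖(1 - φ u) • v‖ ≤ ‖v + u‖ := by
      rw [h5]
      have := norm_sub_norm_le (u + φ u • v) (-((1 - φ u) • v))
      rw [norm_neg, sub_neg_eq_add] at this
      exact this
    rw [norm_smul, hv, mul_one, Real.norm_of_nonneg (by linarith)] at h6
    linarith
  have h7 := norm_combo_ge hv.le hu h4 (norm_nonneg w) hs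
  rw [← hwv] at h7
  have hMe : M * (2 * e) ≤ ε := by
    rw [he]
    have : M * (2 * (ε / (2 * (M + 1)))) = ε * (M / (M + 1)) := by
      field_simp
    rw [this]
    have h8 : M / (M + 1) ≤ 1 := by
      rw [div_le_one (by linarith)]; linarith
    nlinarith
  have heε : e ≤ ε := by
    rw [he]
    apply div_le_self hε.le
    linarith
  exact ⟨u, hu, by linarith, by linarith⟩

/-- Adaptive choice in finitely many slices. -/
lemma exists_mem_slices (hV : HasDaugavetProperty V) {ι : Type*} (φ : ι → V →L[ℝ] ℝ)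
    (hφ : ∀ i, ‖φ i‖ = 1) (δ : ι → ℝ) (hδ : ∀ i, 0 < δ i) (l : ι → ℝ) (hl : ∀ i, 0 ≤ l i)
    (I : Finset ι) :
    ∀ (w : V) {ε : ℝ}, 0 < ε → ∃ z : ι → V, (∀ i ∈ I, ‖z i‖ ≤ 1 ∧ 1 - δ i < φ i (z i)) ∧
      ‖w‖ + ∑ i ∈ I, l i - ε ≤ ‖w + ∑ i ∈ I, l i • z i‖ := by
  classical
  induction I using Finset.induction_on with
  | empty =>
    intro w ε hε
    exact ⟨fun _ => 0, by simp, by simp; linarith⟩
  | insert j I hj ih =>
    intro w ε hε
    obtain ⟨z, hz, hz2⟩ := ih w (half_pos hε)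
    obtain ⟨zj, hzj, hzj2, hzj3⟩ := exists_mem_slice hV (w + ∑ i ∈ I, l i • z i) (φ j) (hφ j)
      (hl j) (ε := min (δ j) (ε / 2)) (lt_min (hδ j) (half_pos hε))
    refine ⟨Function.update z j zj, ?_, ?_⟩
    · intro i hi
      by_cases hij : i = j
      · subst hij
        rw [Function.update_self]
        exact ⟨hzj, lt_of_le_of_lt (by linarith [min_le_left (δ i) (ε / 2)]) hzj2⟩
      · rw [Function.update_of_ne hij]
        exact hz i (Finset.mem_of_mem_insert_of_ne hi hij)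
    · rw [Finset.sum_insert hj, Finset.sum_insert hj, Function.update_self]
      have hs : ∑ i ∈ I, l i • Function.update z j zj i = ∑ i ∈ I, l i • z i := by
        refine Finset.sum_congr rfl fun i hi => ?_
        rw [Function.update_of_ne (ne_of_mem_of_not_mem hi hj)]
      rw [hs]
      have h1 : w + (l j • zj + ∑ i ∈ I, l i • z i) = w + ∑ i ∈ I, l i • z i + l j • zj := by
        abel
      rw [h1]
      have := min_le_right (δ j) (ε / 2)
      linarith

/-- Points of `W` which are limits of slices of the unit ball of `V` under `T`. -/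
def slicePoints {W : Type*} [NormedAddCommGroup W] [NormedSpace ℝ W] (T : V →L[ℝ] W) : Set W :=
  {p : W | ∀ ε : ℝ, 0 < ε → ∃ φ : V →L[ℝ] ℝ, ‖φ‖ = 1 ∧ ∃ δ : ℝ, 0 < δ ∧
    ∀ z : V, ‖z‖ ≤ 1 → 1 - δ < φ z → ‖T z - p‖ ≤ ε}

section Euclid

variable {W : Type*} [NormedAddCommGroup W] [InnerProductSpace ℝ W] [FiniteDimensional ℝ W]

omit [FiniteDimensional ℝ W] in
/-- A farthest point of the closure of the image of the ball is a slice point. -/
lemma mem_slicePoints_of_farthest [Nontrivial V] (T : V →L[ℝ] W) (c p : W)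
    (hp : p ∈ closure (T '' Metric.closedBall 0 1))
    (hmax : ∀ z : V, ‖z‖ ≤ 1 → ‖T z - c‖ ≤ ‖p - c‖) : p ∈ slicePoints T := by
  intro ε hε
  set φ₀ : V →L[ℝ] ℝ := (innerSL ℝ (p - c)).comp T with hφ₀
  have hφ₀a : ∀ z, φ₀ z = inner ℝ (p - c) (T z) := fun z => rfl
  -- main estimate
  have hsup : inner ℝ (p - c) p ≤ ‖φ₀‖ := by
    have hcl : closure (T '' Metric.closedBall 0 1) ⊆ {q : W | inner ℝ (p - c) q ≤ ‖φ₀‖} := by
      apply closure_minimal
      · rintro _ ⟨z, hz, rfl⟩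
        rw [mem_closedBall_zero_iff] at hz
        show inner ℝ (p - c) (T z) ≤ ‖φ₀‖
        rw [← hφ₀a]
        calc φ₀ z ≤ ‖φ₀ z‖ := Real.le_norm_self _
          _ ≤ ‖φ₀‖ * ‖z‖ := φ₀.le_opNorm z
          _ ≤ ‖φ₀‖ * 1 := by gcongr
          _ = ‖φ₀‖ := mul_one _
      · exact isClosed_le (by fun_prop) continuous_const
    exact hcl hp
  have hest : ∀ z : V, ‖z‖ ≤ 1 → ‖T z - p‖ ^ 2 ≤ 2 * (‖φ₀‖ - φ₀ z) := by
    intro z hz
    have h1 : T z - p = (T z - c) - (p - c) := by abel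
    have h2 : ‖T z - p‖ ^ 2 = ‖T z - c‖ ^ 2 - 2 * inner ℝ (T z - c) (p - c) + ‖p - c‖ ^ 2 := by
      rw [h1]; exact norm_sub_sq_real _ _
    have h3 : ‖T z - c‖ ^ 2 ≤ ‖p - c‖ ^ 2 := by
      have := hmax z hz
      gcongr
    have h4 : inner ℝ (T z - c) (p - c) = φ₀ z - inner ℝ (p - c) c := by
      rw [hφ₀a, real_inner_comm, inner_sub_right]
    have h5 : ‖p - c‖ ^ 2 = inner ℝ (p - c) p - inner ℝ (p - c) c := by
      rw [← inner_sub_right, real_inner_self_eq_norm_sq]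
    nlinarith
  by_cases h0 : ‖φ₀‖ = 0
  · obtain ⟨x, hx⟩ := exists_ne (0 : V)
    obtain ⟨g, hg, -⟩ := exists_dual_vector ℝ x (norm_ne_zero_iff.2 hx)
    refine ⟨g, hg, 1, one_pos, fun z hz _ => ?_⟩
    have h1 := hest z hz
    have h2 : φ₀ z = 0 := by
      have : φ₀ = 0 := norm_eq_zero.1 h0
      rw [this]; rfl
    rw [h0, h2] at h1
    have h3 : ‖T z - p‖ ^ 2 ≤ 0 := by linarith
    have h4 : ‖T z - p‖ = 0 := by nlinarith [norm_nonneg (T z - p), sq_nonneg ‖T z - p‖]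
    linarith
  · have hpos : 0 < ‖φ₀‖ := lt_of_le_of_ne (norm_nonneg _) (Ne.symm h0)
    refine ⟨‖φ₀‖⁻¹ • φ₀, ?_, ε ^ 2 / (2 * ‖φ₀‖), by positivity, fun z hz hz2 => ?_⟩
    · rw [norm_smul, norm_inv, norm_norm, inv_mul_cancel₀ h0]
    · have h1 := hest z hz
      have h2 : (‖φ₀‖⁻¹ • φ₀) z = φ₀ z / ‖φ₀‖ := by
        simp [div_eq_inv_mul]
      rw [h2, lt_div_iff₀ hpos] at hz2
      have h3 : (1 - ε ^ 2 / (2 * ‖φ₀‖)) * ‖φ₀‖ = ‖φ₀‖ - ε ^ 2 / 2 := by
        field_simp
      rw [h3] at hz2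
      have h4 : ‖T z - p‖ ^ 2 ≤ ε ^ 2 := by linarith
      exact abs_le_of_sq_le_sq' h4 hε.le |>.2

/-- The image of any unit-ball vector is in the closed convex hull of the slice points. -/
lemma mem_closure_convexHull_slicePoints [Nontrivial V] (T : V →L[ℝ] W) (x : V) (hx : ‖x‖ ≤ 1) :
    T x ∈ closure (convexHull ℝ (slicePoints T)) := by
  by_contra hcon
  obtain ⟨f, u, hf, hfu⟩ := geometric_hahn_banach_closed_point
    ((convex_convexHull ℝ (slicePoints T)).closure) isClosed_closure hcon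
  set a : W := (InnerProductSpace.toDual ℝ W).symm f with ha
  have hfa : ∀ q, f q = inner ℝ a q := fun q => by
    rw [ha, InnerProductSpace.toDual_symm_apply]
  have hgap : 0 < f (T x) - u := by linarith
  set lam : ℝ := (2 * (‖T‖ + 1) ^ 2 + 1) / (f (T x) - u) with hlam
  have hlam0 : 0 < lam := by positivity
  set c : W := T x - lam • a with hc
  -- compactness
  have hbdd : Bornology.IsBounded (T '' Metric.closedBall (0 : V) 1) :=
    T.lipschitz.isBounded_image Metric.isBounded_closedBall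
  have hK : IsCompact (closure (T '' Metric.closedBall (0 : V) 1)) := hbdd.isCompact_closure
  have hne : (closure (T '' Metric.closedBall (0 : V) 1)).Nonempty :=
    ⟨T x, subset_closure ⟨x, by simpa using hx, rfl⟩⟩
  obtain ⟨p, hp, hpmax⟩ := hK.exists_isMaxOn hne
    (f := fun q => ‖q - c‖) (by fun_prop)
  have hpmax' : ∀ z : V, ‖z‖ ≤ 1 → ‖T z - c‖ ≤ ‖p - c‖ := fun z hz =>
    hpmax (subset_closure ⟨z, by simpa using hz, rfl⟩)
  have hpS := mem_slicePoints_of_farthest T c p hp hpmax'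
  have hfp : f p < u := hf p (subset_closure (subset_convexHull ℝ _ hpS))
  have hdist := hpmax' x hx
  -- bound on `‖p - T x‖`
  have hTb : ∀ q ∈ closure (T '' Metric.closedBall (0 : V) 1), ‖q‖ ≤ ‖T‖ := by
    intro q hq
    have hcl : closure (T '' Metric.closedBall 0 1) ⊆ {q : W | ‖q‖ ≤ ‖T‖} := by
      apply closure_minimal
      · rintro _ ⟨z, hz, rfl⟩
        rw [mem_closedBall_zero_iff] at hz
        calc ‖T z‖ ≤ ‖T‖ * ‖z‖ := T.le_opNorm z
          _ ≤ ‖T‖ * 1 := by gcongr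
          _ = ‖T‖ := mul_one _
      · exact isClosed_le continuous_norm continuous_const
    exact hcl hq
  have h1 : ‖p - T x‖ ≤ 2 * ‖T‖ := by
    have h2 := hTb p hp
    have h3 := hTb (T x) (subset_closure ⟨x, by simpa using hx, rfl⟩)
    calc ‖p - T x‖ ≤ ‖p‖ + ‖T x‖ := norm_sub_le _ _
      _ ≤ 2 * ‖T‖ := by linarith
  have h4 : ‖T x - c‖ ^ 2 = lam ^ 2 * ‖a‖ ^ 2 := by
    rw [hc, sub_sub_cancel, norm_smul, Real.norm_of_nonneg hlam0.le, mul_pow]
  have h5 : ‖p - c‖ ^ 2 = ‖p - T x‖ ^ 2 + 2 * (lam * (f p - f (T x))) + lam ^ 2 * ‖a‖ ^ 2 := by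
    have : p - c = (p - T x) + lam • a := by rw [hc]; abel
    rw [this, norm_add_sq_real, inner_smul_right, real_inner_comm, inner_sub_right, ← hfa, ← hfa,
      norm_smul, Real.norm_of_nonneg hlam0.le, mul_pow]
  have h6 : ‖T x - c‖ ^ 2 ≤ ‖p - c‖ ^ 2 := by gcongr
  have h7 : ‖p - T x‖ ^ 2 ≤ 4 * ‖T‖ ^ 2 := by
    have : ‖p - T x‖ ^ 2 ≤ (2 * ‖T‖) ^ 2 := by gcongr
    linarith [this, mul_pow 2 ‖T‖ 2]
  have h8 : lam * (f (T x) - u) = 2 * (‖T‖ + 1) ^ 2 + 1 := by
    rw [hlam, div_mul_cancel₀ _ hgap.ne']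
  have h9 : lam * (f p - f (T x)) ≤ - (lam * (f (T x) - u)) := by
    have : lam * (f p) ≤ lam * u := by gcongr
    linarith
  nlinarith [norm_nonneg T]

end Euclid

/-- Main statement: in a Daugavet space `V`, for `x` in the unit ball, any `w`, any closed subspace
`S` of finite codimension, there is `z` in the unit ball with `‖w + z‖ ≥ ‖w‖ + 1 - ε` and `z - x`
within `ε` of `S`. -/
theorem exists_near (hV : HasDaugavetProperty V) [Nontrivial V] (x w : V) (hx : ‖x‖ ≤ 1)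
    (S : Submodule ℝ V) (hS : IsClosed (S : Set V)) (hfin : FiniteDimensional ℝ (V ⧸ S))
    {ε : ℝ} (hε : 0 < ε) :
    ∃ z : V, ‖z‖ ≤ 1 ∧ ‖w‖ + 1 - ε ≤ ‖w + z‖ ∧ ∃ y ∈ S, ‖z - x - y‖ ≤ ε := by
  classical
  have := hS
  let e : (V ⧸ S) ≃L[ℝ] EuclideanSpace ℝ (Fin (Module.finrank ℝ (V ⧸ S))) := toEuclidean
  let T : V →L[ℝ] EuclideanSpace ℝ (Fin (Module.finrank ℝ (V ⧸ S))) :=
    (e : (V ⧸ S) →L[ℝ] _).comp S.mkQL
  have hT : ∀ v, T v = e (S.mkQ v) := fun v => rfl
  set C : ℝ := ‖(e.symm : EuclideanSpace ℝ (Fin (Module.finrank ℝ (V ⧸ S))) →L[ℝ] (V ⧸ S))‖ with hC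
  have hC0 : 0 ≤ C := ContinuousLinearMap.opNorm_nonneg _
  set r : ℝ := ε / (4 * (C + 1)) with hr
  have hr0 : 0 < r := by positivity
  have hmem := mem_closure_convexHull_slicePoints T x hx
  rw [Metric.mem_closure_iff] at hmem
  obtain ⟨q, hq, hqd⟩ := hmem r hr0
  rw [mem_convexHull_iff_exists_fintype] at hq
  obtain ⟨ι, hι, l, d, hl0, hl1, hd, hlq⟩ := hq
  choose φ hφ δ hδ hsl using fun i => hd i r hr0
  obtain ⟨z, hz, hz2⟩ := exists_mem_slices hV φ hφ δ hδ l hl0 Finset.univ w hε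
  refine ⟨∑ i, l i • z i, ?_, ?_, ?_⟩
  · calc ‖∑ i, l i • z i‖ ≤ ∑ i, ‖l i • z i‖ := norm_sum_le _ _
      _ ≤ ∑ i, l i := by
        refine Finset.sum_le_sum fun i _ => ?_
        rw [norm_smul, Real.norm_of_nonneg (hl0 i)]
        have := (hz i (Finset.mem_univ i)).1
        nlinarith [hl0 i]
      _ = 1 := hl1
  · rw [hl1] at hz2; exact hz2
  · -- estimate in the quotient
    have h1 : ‖T (∑ i, l i • z i) - q‖ ≤ r := by
      have h2 : T (∑ i, l i • z i) - q = ∑ i, l i • (T (z i) - d i) := by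
        rw [map_sum, ← hlq, ← Finset.sum_sub_distrib]
        refine Finset.sum_congr rfl fun i _ => ?_
        rw [map_smul, smul_sub]
      rw [h2]
      calc ‖∑ i, l i • (T (z i) - d i)‖ ≤ ∑ i, ‖l i • (T (z i) - d i)‖ := norm_sum_le _ _
        _ ≤ ∑ i, l i * r := by
          refine Finset.sum_le_sum fun i _ => ?_
          rw [norm_smul, Real.norm_of_nonneg (hl0 i)]
          have h3 := hz i (Finset.mem_univ i)
          have := hsl i (z i) h3.1 h3.2
          exact mul_le_mul_of_nonneg_left this (hl0 i)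
        _ = r := by rw [← Finset.sum_mul, hl1, one_mul]
    have h4 : ‖T (∑ i, l i • z i - x)‖ ≤ 2 * r := by
      have h5 : T (∑ i, l i • z i - x) = (T (∑ i, l i • z i) - q) - (T x - q) := by
        rw [map_sub]; abel
      rw [h5]
      have h6 : ‖T x - q‖ ≤ r := by rw [← dist_eq_norm]; exact hqd.le
      calc _ ≤ ‖T (∑ i, l i • z i) - q‖ + ‖T x - q‖ := norm_sub_le _ _
        _ ≤ 2 * r := by linarith
    have h7 : ‖(Submodule.Quotient.mk (∑ i, l i • z i - x) : V ⧸ S)‖ ≤ C * (2 * r) := by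
      have h8 : (Submodule.Quotient.mk (∑ i, l i • z i - x) : V ⧸ S)
          = e.symm (T (∑ i, l i • z i - x)) := by
        rw [hT, ContinuousLinearEquiv.symm_apply_apply]; rfl
      rw [h8]
      calc _ ≤ C * ‖T (∑ i, l i • z i - x)‖ :=
            (e.symm : EuclideanSpace ℝ (Fin (Module.finrank ℝ (V ⧸ S))) →L[ℝ] (V ⧸ S)).le_opNorm _
        _ ≤ C * (2 * r) := by gcongr
    have h9 : C * (2 * r) < ε / 2 + 0 := by
      rw [hr]
      have : C * (2 * (ε / (4 * (C + 1)))) = (ε / 2) * (C / (C + 1)) := by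
        field_simp; ring
      rw [this, add_zero]
      have h10 : C / (C + 1) < 1 := by
        rw [div_lt_one (by linarith)]; linarith
      nlinarith
    obtain ⟨m, hm, hmn⟩ := Submodule.Quotient.norm_mk_lt
      (Submodule.Quotient.mk (∑ i, l i • z i - x) : V ⧸ S) (half_pos hε)
    refine ⟨∑ i, l i • z i - x - m, ?_, ?_⟩
    · rw [Submodule.Quotient.eq] at hm
      have := S.neg_mem hm
      simpa using this
    · rw [sub_sub_cancel]
      linarith

end Crest.Agent.R125.Daugavet
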