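import Mathlib
import Crest.Prelude.Def_AsymptoticConvexity
import Crest.Prelude.Def_Diamond

/-!
Property (M) for result 125. Definitions only (no proofs here).
-/

set_option autoImplicit false

namespace Crest.Agent.R125

/-- Property (M): the averaged midpoint inequality with constant `1/4`, off finite codimension. -/
def PropM (X : Type*) [NormedAddCommGroup X] [NormedSpace ℝ X] : Prop :=
  ∀ (x : X) (ε : ℝ), 0 < ε → ∃ S : Submodule ℝ X, IsClosed (S : Set X) ∧
    FiniteDimensional ℝ (X ⧸ S) ∧
    ∀ y ∈ S, 2 * Real.sqrt (‖x‖ ^ 2 + ‖y‖ ^ 2 / 4) - ε ≤ ‖x + y‖ + ‖x - y‖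

/-- Reflexivity in the form used by `RealBanach.IsReflexive`. -/
def Reflexive (X : Type*) [NormedAddCommGroup X] [NormedSpace ℝ X] : Prop :=
  Function.Surjective (NormedSpace.inclusionInDoubleDual ℝ X)

end Crest.Agent.R125
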