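import Mathlib
import Crest.Prelude.Def_AsymptoticConvexity
import Crest.Agent.R125.Prop

/-!
Asymptotic moduli from property (M) (result 125).
-/

set_option autoImplicit false

namespace Crest.Agent.R125

open Crest.AnalysisR

/-- Property (M) gives the averaged midpoint modulus `√(1+t²/4) - 1`. -/
theorem midpointModulusGE_of_propM {X : Type} [nX : NormedAddCommGroup X] [sX : NormedSpace ℝ X]
    (cX : CompleteSpace X) (hM : PropM X) (t c : ℝ) (ht : 0 < t)
    (hc : c ≤ Real.sqrt (1 + t ^ 2 / 4) - 1) :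
    (RealBanach.mk X nX sX cX).MidpointModulusGE (RealBanach.mk X nX sX cX).norm t c := by
  intro x hx η hη
  have hx1 : ‖x‖ = 1 := hx
  obtain ⟨S, hScl, hSfd, hS⟩ := hM x (2 * η) (by positivity)
  refine ⟨(S : Set X), ⟨S, rfl, hScl, hSfd⟩, fun y hy hy1 => ?_⟩
  have hyn : ‖y‖ = 1 := hy1
  have h1 := hS (t • y) (S.smul_mem t hy)
  rw [norm_smul, hyn, Real.norm_eq_abs, abs_of_pos ht, hx1, mul_one, one_pow] at h1
  show c - η ≤ (‖x + t • y‖ + ‖x - t • y‖) / 2 - 1
  linarith

/-- Property (M) gives the max-based midpoint modulus `√(1+t²/4) - 1`. -/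
theorem maxMidpointModulusGE_of_propM {X : Type} [nX : NormedAddCommGroup X]
    [sX : NormedSpace ℝ X] (cX : CompleteSpace X) (hM : PropM X) (t c : ℝ) (ht : 0 < t)
    (hc : c ≤ Real.sqrt (1 + t ^ 2 / 4) - 1) :
    (RealBanach.mk X nX sX cX).MaxMidpointModulusGE (RealBanach.mk X nX sX cX).norm t c := by
  intro x hx η hη
  have hx1 : ‖x‖ = 1 := hx
  obtain ⟨S, hScl, hSfd, hS⟩ := hM x (2 * η) (by positivity)
  refine ⟨(S : Set X), ⟨S, rfl, hScl, hSfd⟩, fun y hy hy1 => ?_⟩
  have hyn : ‖y‖ = 1 := hy1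
  have h1 := hS (t • y) (S.smul_mem t hy)
  rw [norm_smul, hyn, Real.norm_eq_abs, abs_of_pos ht, hx1, mul_one, one_pow] at h1
  show c - η ≤ max (‖x + t • y‖) (‖x - t • y‖) - 1
  have h2 := le_max_left (‖x + t • y‖) (‖x - t • y‖)
  have h3 := le_max_right (‖x + t • y‖) (‖x - t • y‖)
  linarith

/-- Property (M) passes to subspaces (through a linear isometric embedding). -/
theorem propM_of_isometry {X Y : Type*} [NormedAddCommGroup X] [NormedSpace ℝ X]
    [NormedAddCommGroup Y] [NormedSpace ℝ Y] (T : Y →ₗᵢ[ℝ] X) (hM : PropM X) : PropM Y := by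
  intro x ε hε
  obtain ⟨S, hScl, hSfd, hS⟩ := hM (T x) ε hε
  refine ⟨S.comap T.toLinearMap, ?_, ?_, fun y hy => ?_⟩
  · exact hScl.preimage T.continuous
  · have := hSfd
    let Q : (Y ⧸ S.comap T.toLinearMap) →ₗ[ℝ] (X ⧸ S) :=
      Submodule.mapQ (S.comap T.toLinearMap) S T.toLinearMap le_rfl
    have hQ : Function.Injective Q := by
      rw [← LinearMap.ker_eq_bot]
      rw [Submodule.ker_mapQ]
      simp
    exact FiniteDimensional.of_injective Q hQ
  · have h1 := hS (T y) hy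
    rw [← map_add, ← map_sub, T.norm_map, T.norm_map, T.norm_map, T.norm_map] at h1
    exact h1

end Crest.Agent.R125
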