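import Mathlib
import Crest.Prelude.Def_TreePotentials

/-!
Combining two tests of a bounded-potential model (result 125).
-/

set_option autoImplicit false

namespace Crest.Agent.R125.Pot

open Crest.AnalysisR Crest.AnalysisR.TreePotential

/-- Pointwise square domination transfers the extra condition. -/
theorem extra_of_sq_le {m : PotentialModel} {f g h : List ℕ → ℝ} {a b : ℝ}
    (hab : a ^ 2 + b ^ 2 ≤ 1) (hf : ExtraCondition m f) (hg : ExtraCondition m g)
    (hsq : ∀ s, h s ^ 2 ≤ a ^ 2 * f s ^ 2 + b ^ 2 * g s ^ 2) : ExtraCondition m h := by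
  have key : ∀ {ι : Type} (B : Finset ι) (v : ι → List ℕ), (∑ i ∈ B, f (v i) ^ 2 ≤ 1) →
      (∑ i ∈ B, g (v i) ^ 2 ≤ 1) → ∑ i ∈ B, h (v i) ^ 2 ≤ 1 := by
    intro ι B v h1 h2
    calc ∑ i ∈ B, h (v i) ^ 2 ≤ ∑ i ∈ B, (a ^ 2 * f (v i) ^ 2 + b ^ 2 * g (v i) ^ 2) :=
          Finset.sum_le_sum fun i _ => hsq _
      _ = a ^ 2 * ∑ i ∈ B, f (v i) ^ 2 + b ^ 2 * ∑ i ∈ B, g (v i) ^ 2 := by
          rw [Finset.sum_add_distrib, Finset.mul_sum, Finset.mul_sum]
      _ ≤ a ^ 2 * 1 + b ^ 2 * 1 := by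
          have := sq_nonneg a
          have := sq_nonneg b
          gcongr
      _ ≤ 1 := by linarith
  cases m with
  | rootlessSibling =>
    obtain ⟨hf0, hf1⟩ := hf
    obtain ⟨hg0, hg1⟩ := hg
    refine ⟨?_, fun r B => key B (fun n => n :: r) (hf1 r B) (hg1 r B)⟩
    have h0 := hsq []
    rw [hf0, hg0] at h0
    have h1 : h [] ^ 2 = 0 := le_antisymm (by simpa using h0) (sq_nonneg _)
    simpa using h1
  | rootedSibling =>
    exact fun r B => key B (fun n => n :: r) (hf r B) (hg r B)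
  | antichain =>
    obtain ⟨hf0, hf1⟩ := hf
    obtain ⟨hg0, hg1⟩ := hg
    refine ⟨(hf0.union hg0).subset ?_, fun B hB => key B (fun s => s) (hf1 B hB) (hg1 B hB)⟩
    intro s hs
    by_contra hcon
    simp only [Set.mem_union, Function.mem_support, not_or, not_not] at hcon
    have h0 := hsq s
    rw [hcon.1, hcon.2] at h0
    have h1 : h s ^ 2 = 0 := le_antisymm (by simpa using h0) (sq_nonneg _)
    exact hs (by simpa using h1)
  | «global» =>
    exact fun B => key B (fun s => s) (hf B) (hg B)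

/-- The value of `φ` at the last ancestor lying in `A` (the root counts as lying in `A`). -/
noncomputable def anchor (A : Set (List ℕ)) (φ : List ℕ → ℝ) : List ℕ → ℝ
  | [] => φ []
  | x :: v => by
      classical
      exact if (x :: v) ∈ A then φ (x :: v) else anchor A φ v

theorem anchor_mem {A : Set (List ℕ)} {φ : List ℕ → ℝ} {s : List ℕ} (hs : s ∈ A) :
    anchor A φ s = φ s := by
  cases s with
  | nil => rfl
  | cons x v => simp [anchor, hs]

theorem anchor_cons_notMem {A : Set (List ℕ)} {φ : List ℕ → ℝ} {x : ℕ} {v : List ℕ}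
    (hs : (x :: v) ∉ A) : anchor A φ (x :: v) = anchor A φ v := by
  simp [anchor, hs]

theorem anchor_prop {A : Set (List ℕ)} {φ : List ℕ → ℝ} {Q : ℝ → Prop} (hφ : ∀ s, Q (φ s))
    (s : List ℕ) : Q (anchor A φ s) := by
  induction s with
  | nil => exact hφ []
  | cons x v ih =>
    by_cases h : (x :: v) ∈ A
    · rw [anchor_mem h]; exact hφ _
    · rw [anchor_cons_notMem h]; exact ih

/-- The coefficient family with a given potential. -/
def ofPotential (H : List ℕ → ℝ) : List ℕ → ℝ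
  | [] => H []
  | x :: v => H (x :: v) - H v

theorem pathPotential_ofPotential (H : List ℕ → ℝ) (s : List ℕ) :
    pathPotential (ofPotential H) s = H s := by
  induction s with
  | nil => rfl
  | cons x v ih => simp [pathPotential, ofPotential, ih]

/-- The piecewise linear profile used for the combined potential. -/
noncomputable def prof (b p z : ℝ) : ℝ :=
  p + b * ((1 - p) / 2 * max z 0 - (1 + p) / 2 * max (-z) 0)

theorem prof_zero (b p : ℝ) : prof b p 0 = p := by simp [prof]

theorem prof_sub_prof_neg (b p z : ℝ) : prof b p z - prof b p (-z) = b * z := by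
  unfold prof
  rw [neg_neg]
  rcases le_total 0 z with h | h
  · rw [max_eq_left h, max_eq_right (by linarith : -z ≤ 0)]; ring
  · rw [max_eq_right h, max_eq_left (by linarith : 0 ≤ -z)]; ring

theorem abs_prof_le {b p z : ℝ} (hb0 : 0 ≤ b) (hb1 : b ≤ 1) (hp : |p| ≤ 1) (hz : |z| ≤ 2) :
    |prof b p z| ≤ 1 := by
  obtain ⟨hp1, hp2⟩ := abs_le.mp hp
  obtain ⟨hz1, hz2⟩ := abs_le.mp hz
  unfold prof
  rcases le_total 0 z with h | h
  · rw [max_eq_left h, max_eq_right (by linarith : -z ≤ 0)]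
    have h1 : 0 ≤ (1 - p) / 2 * z := mul_nonneg (by linarith) h
    have h2 : (1 - p) / 2 * z ≤ (1 - p) / 2 * 2 := mul_le_mul_of_nonneg_left hz2 (by linarith)
    have h3 : 0 ≤ b * ((1 - p) / 2 * z) := mul_nonneg hb0 h1
    have h4 : b * ((1 - p) / 2 * z) ≤ 1 * ((1 - p) / 2 * z) := mul_le_mul_of_nonneg_right hb1 h1
    rw [abs_le]
    constructor <;> nlinarith
  · rw [max_eq_right h, max_eq_left (by linarith : 0 ≤ -z)]
    have h1 : 0 ≤ (1 + p) / 2 * (-z) := mul_nonneg (by linarith) (by linarith)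
    have h2 : (1 + p) / 2 * (-z) ≤ (1 + p) / 2 * 2 :=
      mul_le_mul_of_nonneg_left (by linarith) (by linarith)
    have h3 : 0 ≤ b * ((1 + p) / 2 * (-z)) := mul_nonneg hb0 h1
    have h4 : b * ((1 + p) / 2 * (-z)) ≤ 1 * ((1 + p) / 2 * (-z)) :=
      mul_le_mul_of_nonneg_right hb1 h1
    rw [abs_le]
    constructor <;> nlinarith

theorem abs_prof_sub_le {b p z w : ℝ} (hb0 : 0 ≤ b) (hp : |p| ≤ 1) :
    |prof b p z - prof b p w| ≤ b * |z - w| := by
  obtain ⟨hp1, hp2⟩ := abs_le.mp hp
  have main : ∀ z w : ℝ, w ≤ z → |prof b p z - prof b p w| ≤ b * |z - w| := by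
    intro z w hwz
    have hzw : |z - w| = z - w := abs_of_nonneg (by linarith)
    rw [hzw]
    have e : prof b p z - prof b p w = b * ((1 - p) / 2 * (max z 0 - max w 0) +
        (1 + p) / 2 * (max (-w) 0 - max (-z) 0)) := by
      unfold prof; ring
    have m1 : 0 ≤ max z 0 - max w 0 := by
      have := max_le_max hwz (le_refl (0 : ℝ)); linarith
    have m2 : 0 ≤ max (-w) 0 - max (-z) 0 := by
      have := max_le_max (neg_le_neg hwz) (le_refl (0 : ℝ)); linarith
    have m3 : (max z 0 - max w 0) + (max (-w) 0 - max (-z) 0) = z - w := by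
      have h1 : max z 0 - max (-z) 0 = z := by
        rcases le_total 0 z with h | h
        · rw [max_eq_left h, max_eq_right (by linarith : -z ≤ 0)]; ring
        · rw [max_eq_right h, max_eq_left (by linarith : 0 ≤ -z)]; ring
      have h2 : max w 0 - max (-w) 0 = w := by
        rcases le_total 0 w with h | h
        · rw [max_eq_left h, max_eq_right (by linarith : -w ≤ 0)]; ring
        · rw [max_eq_right h, max_eq_left (by linarith : 0 ≤ -w)]; ring
      linarith
    have n1 : 0 ≤ (1 - p) / 2 * (max z 0 - max w 0) := mul_nonneg (by linarith) m1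
    have n2 : 0 ≤ (1 + p) / 2 * (max (-w) 0 - max (-z) 0) := mul_nonneg (by linarith) m2
    have n3 : (1 - p) / 2 * (max z 0 - max w 0) ≤ max z 0 - max w 0 := by nlinarith
    have n4 : (1 + p) / 2 * (max (-w) 0 - max (-z) 0) ≤ max (-w) 0 - max (-z) 0 := by nlinarith
    rw [e, abs_of_nonneg (mul_nonneg hb0 (by linarith))]
    refine mul_le_mul_of_nonneg_left ?_ hb0
    linarith
  rcases le_total w z with h | h
  · exact main z w h
  · rw [abs_sub_comm, abs_sub_comm z w]; exact main w z h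

/-- The combined potential. -/
noncomputable def combPot (A : Set (List ℕ)) (a b : ℝ) (f g : List ℕ → ℝ) (s : List ℕ) : ℝ :=
  prof b (a * anchor A (pathPotential f) s) (pathPotential g s - anchor A (pathPotential g) s)

/-- The second combined potential. -/
noncomputable def combPot' (A : Set (List ℕ)) (a b : ℝ) (f g : List ℕ → ℝ) (s : List ℕ) : ℝ :=
  prof b (a * anchor A (pathPotential f) s) (-(pathPotential g s - anchor A (pathPotential g) s))

section

variable {m : PotentialModel} {A : Set (List ℕ)} {a b : ℝ} {f g : List ℕ → ℝ}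

theorem comb_on (hA0 : [] ∈ A) (hA : ∀ (x : ℕ) (v : List ℕ), (x :: v) ∈ A → v ∈ A)
    {s : List ℕ} (hs : s ∈ A) : ofPotential (combPot A a b f g) s = a * f s := by
  have hval : ∀ t ∈ A, combPot A a b f g t = a * pathPotential f t := by
    intro t ht
    rw [combPot, anchor_mem ht, anchor_mem ht, sub_self, prof_zero]
  cases s with
  | nil => simp [ofPotential, hval [] hA0, pathPotential]
  | cons x v =>
    simp only [ofPotential]
    rw [hval _ hs, hval _ (hA x v hs)]
    simp [pathPotential]; ring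

theorem comb_on' (hA0 : [] ∈ A) (hA : ∀ (x : ℕ) (v : List ℕ), (x :: v) ∈ A → v ∈ A)
    {s : List ℕ} (hs : s ∈ A) : ofPotential (combPot' A a b f g) s = a * f s := by
  have hval : ∀ t ∈ A, combPot' A a b f g t = a * pathPotential f t := by
    intro t ht
    rw [combPot', anchor_mem ht, anchor_mem ht, sub_self, neg_zero, prof_zero]
  cases s with
  | nil => simp [ofPotential, hval [] hA0, pathPotential]
  | cons x v =>
    simp only [ofPotential]
    rw [hval _ hs, hval _ (hA x v hs)]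
    simp [pathPotential]; ring

theorem abs_mul_anchor_le (ha0 : 0 ≤ a) (ha1 : a ≤ 1)
    (hf : ∀ s, |pathPotential f s| ≤ 1) (s : List ℕ) :
    |a * anchor A (pathPotential f) s| ≤ 1 := by
  have h1 : |anchor A (pathPotential f) s| ≤ 1 :=
    anchor_prop (Q := fun z => |z| ≤ 1) hf s
  rw [abs_mul, abs_of_nonneg ha0]
  calc a * |anchor A (pathPotential f) s| ≤ 1 * 1 :=
        mul_le_mul ha1 h1 (abs_nonneg _) zero_le_one
    _ = 1 := one_mul 1

theorem comb_off (hA0 : [] ∈ A) (ha0 : 0 ≤ a) (ha1 : a ≤ 1) (hb0 : 0 ≤ b)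
    (hf : ∀ s, |pathPotential f s| ≤ 1) {s : List ℕ} (hs : s ∉ A) :
    |ofPotential (combPot A a b f g) s| ≤ b * |g s| := by
  cases s with
  | nil => exact absurd hA0 hs
  | cons x v =>
    simp only [ofPotential, combPot]
    rw [anchor_cons_notMem hs, anchor_cons_notMem hs]
    refine (abs_prof_sub_le hb0 (abs_mul_anchor_le ha0 ha1 hf v)).trans (le_of_eq ?_)
    congr 2
    simp [pathPotential]

theorem comb_off' (hA0 : [] ∈ A) (ha0 : 0 ≤ a) (ha1 : a ≤ 1) (hb0 : 0 ≤ b)
    (hf : ∀ s, |pathPotential f s| ≤ 1) {s : List ℕ} (hs : s ∉ A) :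
    |ofPotential (combPot' A a b f g) s| ≤ b * |g s| := by
  cases s with
  | nil => exact absurd hA0 hs
  | cons x v =>
    simp only [ofPotential, combPot']
    rw [anchor_cons_notMem hs, anchor_cons_notMem hs]
    refine (abs_prof_sub_le hb0 (abs_mul_anchor_le ha0 ha1 hf v)).trans (le_of_eq ?_)
    congr 1
    rw [← abs_neg]
    congr 1
    simp [pathPotential]

theorem comb_diff (hA0 : [] ∈ A) {s : List ℕ} (hs : s ∉ A) :
    ofPotential (combPot A a b f g) s - ofPotential (combPot' A a b f g) s = b * g s := by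
  cases s with
  | nil => exact absurd hA0 hs
  | cons x v =>
    simp only [ofPotential, combPot, combPot']
    rw [anchor_cons_notMem hs, anchor_cons_notMem hs]
    have h1 := prof_sub_prof_neg b (a * anchor A (pathPotential f) v)
      (pathPotential g (x :: v) - anchor A (pathPotential g) v)
    have h2 := prof_sub_prof_neg b (a * anchor A (pathPotential f) v)
      (pathPotential g v - anchor A (pathPotential g) v)
    have h3 : pathPotential g (x :: v) = pathPotential g v + g (x :: v) := rfl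
    rw [h3] at h1 ⊢
    linear_combination h1 - h2

theorem abs_combPot_le (ha0 : 0 ≤ a) (ha1 : a ≤ 1) (hb0 : 0 ≤ b) (hb1 : b ≤ 1)
    (hf : ∀ s, |pathPotential f s| ≤ 1) (hg : ∀ s, |pathPotential g s| ≤ 1) (s : List ℕ) :
    |combPot A a b f g s| ≤ 1 ∧ |combPot' A a b f g s| ≤ 1 := by
  have h1 := abs_mul_anchor_le (A := A) ha0 ha1 hf s
  have h2 : |anchor A (pathPotential g) s| ≤ 1 :=
    anchor_prop (Q := fun z => |z| ≤ 1) hg s
  have h3 : |pathPotential g s - anchor A (pathPotential g) s| ≤ 2 := by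
    have h4 := hg s
    rw [abs_le] at *
    constructor <;> linarith [h2.1, h2.2, h4.1, h4.2]
  refine ⟨abs_prof_le hb0 hb1 h1 h3, abs_prof_le hb0 hb1 h1 ?_⟩
  rwa [abs_neg]

/-- Main combination lemma. -/
theorem exists_comb (hA0 : [] ∈ A) (hA : ∀ (x : ℕ) (v : List ℕ), (x :: v) ∈ A → v ∈ A)
    (ha0 : 0 ≤ a) (hb0 : 0 ≤ b) (hab : a ^ 2 + b ^ 2 ≤ 1)
    (hf : IsTest m f) (hg : IsTest m g) :
    ∃ h₁ h₂ : List ℕ → ℝ, IsTest m h₁ ∧ IsTest m h₂ ∧
      (∀ s ∈ A, h₁ s = a * f s ∧ h₂ s = a * f s) ∧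
      (∀ s, s ∉ A → h₁ s - h₂ s = b * g s) := by
  have ha1 : a ≤ 1 := by nlinarith [sq_nonneg b]
  have hb1 : b ≤ 1 := by nlinarith [sq_nonneg a]
  have hsq : ∀ h : List ℕ → ℝ, (∀ s ∈ A, h s = a * f s) → (∀ s, s ∉ A → |h s| ≤ b * |g s|) →
      ∀ s, h s ^ 2 ≤ a ^ 2 * f s ^ 2 + b ^ 2 * g s ^ 2 := by
    intro h h1 h2 s
    by_cases hs : s ∈ A
    · rw [h1 s hs, mul_pow]
      have := mul_nonneg (sq_nonneg b) (sq_nonneg (g s))
      linarith
    · have h3 := h2 s hs
      have h4 : h s ^ 2 ≤ (b * |g s|) ^ 2 := by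
        rw [← sq_abs (h s)]
        exact pow_le_pow_left₀ (abs_nonneg _) h3 2
      rw [mul_pow, sq_abs] at h4
      have := mul_nonneg (sq_nonneg a) (sq_nonneg (f s))
      linarith
  refine ⟨ofPotential (combPot A a b f g), ofPotential (combPot' A a b f g),
    ⟨fun s => ?_, ?_⟩, ⟨fun s => ?_, ?_⟩, fun s hs => ⟨comb_on hA0 hA hs, comb_on' hA0 hA hs⟩,
    fun s hs => comb_diff hA0 hs⟩
  · rw [pathPotential_ofPotential]
    exact (abs_combPot_le ha0 ha1 hb0 hb1 hf.1 hg.1 s).1
  · exact extra_of_sq_le hab hf.2 hg.2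
      (hsq _ (fun s hs => comb_on hA0 hA hs) (fun s hs => comb_off hA0 ha0 ha1 hb0 hf.1 hs))
  · rw [pathPotential_ofPotential]
    exact (abs_combPot_le ha0 ha1 hb0 hb1 hf.1 hg.1 s).2
  · exact extra_of_sq_le hab hf.2 hg.2
      (hsq _ (fun s hs => comb_on' hA0 hA hs) (fun s hs => comb_off' hA0 ha0 ha1 hb0 hf.1 hs))

end

end Crest.Agent.R125.Pot
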