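import Mathlib
import Crest.Prelude.Def_TreePotentials
import Crest.Agent.R125.Core
import Crest.Agent.R125.Prop
import Crest.Agent.R125.PotComb

/-!
Property (M) and absence of equivalent AUC norms for the bounded-potential models (result 125).
-/

set_option autoImplicit false

namespace Crest.Agent.R125.Pot

open Crest.AnalysisR Crest.AnalysisR.TreePotential

/-- ambient space -/
abbrev Amb (m : PotentialModel) := lp (fun _ : PotentialTest m => ℝ) ⊤

/-- evaluation at a test -/
noncomputable def ev {m : PotentialModel} (h : PotentialTest m) : Amb m →L[ℝ] ℝ :=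
  lp.evalCLM ℝ (fun _ : PotentialTest m => ℝ) ⊤ h

theorem ev_apply {m : PotentialModel} (h : PotentialTest m) (x : Amb m) : ev h x = x h := rfl

theorem ev_coord {m : PotentialModel} (h : PotentialTest m) (s : List ℕ) :
    ev h (coordVector m s) = h.1 s := rfl

theorem abs_ev_le {m : PotentialModel} (h : PotentialTest m) (x : Amb m) : |ev h x| ≤ ‖x‖ :=
  lp.norm_apply_le_norm (by simp) x h

/-- A continuous functional vanishing on the coordinate vectors vanishes on the model space. -/
theorem vanish_of_coord {m : PotentialModel} (L : Amb m →L[ℝ] ℝ)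
    (hL : ∀ s, L (coordVector m s) = 0) (x : Amb m) (hx : x ∈ modelSpace m) : L x = 0 := by
  have h1 : modelSpace m ≤ LinearMap.ker (L : Amb m →ₗ[ℝ] ℝ) := by
    refine Submodule.topologicalClosure_minimal _ ?_ ?_
    · rw [Submodule.span_le]
      rintro _ ⟨s, rfl⟩
      exact hL s
    · exact L.isClosed_ker
  exact h1 hx

/-! ### tests -/

theorem extra_of_global {m : PotentialModel} {f : List ℕ → ℝ}
    (h0 : m = .rootlessSibling → f [] = 0)
    (hfin : (Function.support f).Finite)
    (hg : ∀ A : Finset (List ℕ), ∑ u ∈ A, f u ^ 2 ≤ 1) : ExtraCondition m f := by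
  have hch : ∀ (r : List ℕ) (A : Finset ℕ), ∑ n ∈ A, f (n :: r) ^ 2 ≤ 1 := by
    intro r A
    have h := hg (A.map ⟨fun n => n :: r, fun a b hab => by simpa using hab⟩)
    rw [Finset.sum_map] at h
    exact h
  cases m with
  | rootlessSibling => exact ⟨h0 rfl, hch⟩
  | rootedSibling => exact hch
  | antichain => exact ⟨hfin, fun A _ => hg A⟩
  | «global» => exact hg

theorem extra_children {m : PotentialModel} {f : List ℕ → ℝ} (hf : ExtraCondition m f)
    (r : List ℕ) (A : Finset ℕ) : ∑ n ∈ A, f (n :: r) ^ 2 ≤ 1 := by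
  cases m with
  | rootlessSibling => exact hf.2 r A
  | rootedSibling => exact hf r A
  | antichain =>
    have h := hf.2 (A.map ⟨fun n => n :: r, fun a b hab => by simpa using hab⟩) (by
      intro u hu v hv huv hsuf
      simp only [Finset.mem_map] at hu hv
      obtain ⟨a, -, ha⟩ := hu
      obtain ⟨b, -, hb⟩ := hv
      refine huv (hsuf.eq_of_length ?_)
      rw [← ha, ← hb]
      rfl)
    rw [Finset.sum_map] at h
    exact h
  | «global» =>
    have h := hf (A.map ⟨fun n => n :: r, fun a b hab => by simpa using hab⟩)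
    rw [Finset.sum_map] at h
    exact h

theorem isTest_zero (m : PotentialModel) : IsTest m (fun _ => 0) := by
  refine ⟨fun s => ?_, extra_of_global (fun _ => rfl) ?_ ?_⟩
  · have : pathPotential (fun _ => 0) s = 0 := by
      induction s with
      | nil => rfl
      | cons x v ih => simp [pathPotential, ih]
    rw [this]; simp
  · simp
  · intro A; simp

theorem isTest_neg {m : PotentialModel} {f : List ℕ → ℝ} (hf : IsTest m f) :
    IsTest m (fun s => - f s) := by
  refine ⟨fun s => ?_, ?_⟩
  · have : pathPotential (fun s => - f s) s = - pathPotential f s := by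
      induction s with
      | nil => rfl
      | cons x v ih => simp [pathPotential, ih]; ring
    rw [this, abs_neg]; exact hf.1 s
  · refine extra_of_sq_le (a := 1) (b := 0) (by norm_num) hf.2 hf.2 (fun s => ?_)
    simp

theorem pathPotential_single (s t : List ℕ) :
    pathPotential (Pi.single s 1) t = if s <:+ t then 1 else 0 := by
  induction t with
  | nil =>
    by_cases h : s = []
    · subst h; simp [pathPotential]
    · have : ¬ s <:+ [] := by simpa using h
      rw [if_neg this]
      simp only [pathPotential]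
      rw [Pi.single_apply, if_neg]
      exact fun h' => h h'.symm
  | cons x v ih =>
    simp only [pathPotential]
    rw [ih, Pi.single_apply]
    by_cases h : x :: v = s
    · have h1 : ¬ s <:+ v := by
        intro hs
        have := hs.length_le
        rw [← h] at this
        simp at this
      rw [if_neg h1, if_pos h, if_pos (h ▸ List.suffix_refl _)]
      ring
    · rw [if_neg h, add_zero]
      have : s <:+ x :: v ↔ s <:+ v := by
        rw [List.suffix_cons_iff]
        constructor
        · rintro (h' | h')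
          · exact absurd h'.symm h
          · exact h'
        · exact Or.inr
      simp only [this]

theorem isTest_single {m : PotentialModel} {s : List ℕ} (hs : m = .rootlessSibling → s ≠ []) :
    IsTest m (Pi.single s 1) := by
  refine ⟨fun t => ?_, extra_of_global ?_ ?_ ?_⟩
  · rw [pathPotential_single]
    split_ifs <;> simp
  · intro hm
    rw [Pi.single_apply, if_neg]
    exact fun h' => hs hm h'.symm
  · exact (Set.finite_singleton s).subset (Pi.support_single_subset)
  · intro A
    have h1 : ∀ u ∈ A, (Pi.single s (1 : ℝ) : List ℕ → ℝ) u ^ 2 = if u = s then 1 else 0 := by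
      intro u _
      rw [Pi.single_apply]
      split_ifs <;> simp
    rw [Finset.sum_congr rfl h1, Finset.sum_ite_eq']
    split_ifs <;> norm_num

/-- The dual coordinate family. -/
noncomputable def deltaFun (m : PotentialModel) (s : List ℕ) : List ℕ → ℝ := by
  classical
  exact if m = .rootlessSibling → s ≠ [] then Pi.single s 1 else fun _ => 0

theorem deltaFun_pos {m : PotentialModel} {s : List ℕ} (hs : m = .rootlessSibling → s ≠ []) :
    deltaFun m s = Pi.single s 1 := by
  classical
  unfold deltaFun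
  exact if_pos hs

theorem deltaFun_neg {m : PotentialModel} {s : List ℕ} (hs : ¬ (m = .rootlessSibling → s ≠ [])) :
    deltaFun m s = fun _ => 0 := by
  classical
  unfold deltaFun
  exact if_neg hs

theorem isTest_deltaFun (m : PotentialModel) (s : List ℕ) : IsTest m (deltaFun m s) := by
  by_cases hs : m = .rootlessSibling → s ≠ []
  · rw [deltaFun_pos hs]; exact isTest_single hs
  · rw [deltaFun_neg hs]; exact isTest_zero m

/-- The dual coordinate test. -/
noncomputable def deltaTest (m : PotentialModel) (s : List ℕ) : PotentialTest m :=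
  ⟨deltaFun m s, isTest_deltaFun m s⟩

theorem deltaFun_mul {m : PotentialModel} {g : List ℕ → ℝ} (hg : IsTest m g) (s t : List ℕ) :
    g s * deltaFun m s t = if t = s then g t else 0 := by
  by_cases hs : m = .rootlessSibling → s ≠ []
  · rw [deltaFun_pos hs, Pi.single_apply]
    by_cases h : t = s
    · rw [if_pos h, if_pos h, h, mul_one]
    · rw [if_neg h, if_neg h, mul_zero]
  · rw [deltaFun_neg hs]
    push Not at hs
    obtain ⟨hm, hs⟩ := hs
    subst hm
    have hg0 : g [] = 0 := hg.2.1
    simp only [mul_zero]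
    by_cases h : t = s
    · rw [if_pos h, h, hs, hg0]
    · rw [if_neg h]

theorem deltaFun_apply_self {m : PotentialModel} {s : List ℕ}
    (hs : m = .rootlessSibling → s ≠ []) : deltaFun m s s = 1 := by
  rw [deltaFun_pos hs]
  simp

/-- negated test -/
def negTest {m : PotentialModel} (h : PotentialTest m) : PotentialTest m :=
  ⟨fun s => - h.1 s, isTest_neg h.2⟩

instance (m : PotentialModel) : Nonempty (PotentialTest m) := ⟨⟨fun _ => 0, isTest_zero m⟩⟩

theorem ev_negTest {m : PotentialModel} (h : PotentialTest m) (x : Amb m)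
    (hx : x ∈ modelSpace m) : ev (negTest h) x = - ev h x := by
  have := vanish_of_coord (ev (negTest h) + ev h) (fun s => by
    rw [add_apply, ev_coord, ev_coord]
    simp [negTest]) x hx
  rw [add_apply] at this
  linarith

/-- norming tests -/
theorem exists_norming {m : PotentialModel} (x : Amb m) (hx : x ∈ modelSpace m)
    {ε : ℝ} (hε : 0 < ε) : ∃ h : PotentialTest m, ‖x‖ - ε < ev h x := by
  have hlub := lp.isLUB_norm x
  obtain ⟨_, ⟨h, rfl⟩, hlt, -⟩ := hlub.exists_between (show ‖x‖ - ε < ‖x‖ by linarith)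
  change ‖x‖ - ε < |ev h x| at hlt
  rcases le_total 0 (ev h x) with h0 | h0
  · exact ⟨h, by rwa [abs_of_nonneg h0] at hlt⟩
  · refine ⟨negTest h, ?_⟩
    rw [ev_negTest h x hx]
    rwa [abs_of_nonpos h0] at hlt

theorem norm_le_of_ev {m : PotentialModel} (x : Amb m) {C : ℝ} 
    (h : ∀ f : PotentialTest m, |ev f x| ≤ C) : ‖x‖ ≤ C :=
  lp.norm_le_of_forall_le' C h

/-! ### property (M) -/

/-- The suffix closure of a finite set of vertices, together with the root. -/
def sufClosure (B : Finset (List ℕ)) : Finset (List ℕ) :=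
  insert [] (B.biUnion fun s => s.tails.toFinset)

theorem nil_mem_sufClosure (B : Finset (List ℕ)) : [] ∈ sufClosure B :=
  Finset.mem_insert_self _ _

theorem subset_sufClosure (B : Finset (List ℕ)) : B ⊆ sufClosure B := by
  intro s hs
  refine Finset.mem_insert_of_mem (Finset.mem_biUnion.mpr ⟨s, hs, ?_⟩)
  simp

theorem sufClosure_parent (B : Finset (List ℕ)) (x : ℕ) (v : List ℕ)
    (h : (x :: v) ∈ sufClosure B) : v ∈ sufClosure B := by
  rw [sufClosure, Finset.mem_insert] at h
  rcases h with h | h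
  · simp at h
  · rw [Finset.mem_biUnion] at h
    obtain ⟨s, hs, hsv⟩ := h
    refine Finset.mem_insert_of_mem (Finset.mem_biUnion.mpr ⟨s, hs, ?_⟩)
    simp only [List.mem_toFinset, List.mem_tails] at hsv ⊢
    exact (List.suffix_cons x v).trans hsv

theorem sqrt_add_le (u v w : ℝ) (hv : 0 ≤ v) :
    Real.sqrt ((u + v) ^ 2 + w ^ 2) ≤ Real.sqrt (u ^ 2 + w ^ 2) + v := by
  rw [Real.sqrt_le_left (by positivity)]
  have h1 : |u| ≤ Real.sqrt (u ^ 2 + w ^ 2) := by
    rw [← Real.sqrt_sq_eq_abs]
    exact Real.sqrt_le_sqrt (by nlinarith [sq_nonneg w])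
  have h2 : Real.sqrt (u ^ 2 + w ^ 2) ^ 2 = u ^ 2 + w ^ 2 := Real.sq_sqrt (by positivity)
  have h3 := le_abs_self u
  nlinarith [Real.sqrt_nonneg (u ^ 2 + w ^ 2)]

theorem finiteDimensional_quot_ker {X V : Type*} [AddCommGroup X] [Module ℝ X] [AddCommGroup V]
    [Module ℝ V] [FiniteDimensional ℝ V] (T : X →ₗ[ℝ] V) :
    FiniteDimensional ℝ (X ⧸ LinearMap.ker T) :=
  (LinearMap.quotKerEquivRange T).symm.finiteDimensional

theorem exists_ab (u w : ℝ) (hu : 0 ≤ u) (hw : 0 ≤ w) : ∃ a b : ℝ, 0 ≤ a ∧ 0 ≤ b ∧ a ≤ 1 ∧ b ≤ 1 ∧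
    a ^ 2 + b ^ 2 ≤ 1 ∧ 2 * a * u + b * (2 * w) = 2 * Real.sqrt (u ^ 2 + w ^ 2) := by
  set R : ℝ := Real.sqrt (u ^ 2 + w ^ 2) with hR
  have hR0 : 0 ≤ R := Real.sqrt_nonneg _
  have hR2 : R ^ 2 = u ^ 2 + w ^ 2 := Real.sq_sqrt (by positivity)
  rcases hR0.eq_or_lt with h0 | hpos
  · refine ⟨0, 0, le_rfl, le_rfl, zero_le_one, zero_le_one, by norm_num, ?_⟩
    rw [← h0]; ring
  · have hab : (u / R) ^ 2 + (w / R) ^ 2 = 1 := by
      rw [div_pow, div_pow, ← add_div, ← hR2]
      exact div_self (by positivity)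
    refine ⟨u / R, w / R, by positivity, by positivity, ?_, ?_, hab.le, ?_⟩
    · nlinarith [sq_nonneg (w / R)]
    · nlinarith [sq_nonneg (u / R)]
    · have h5 : 2 * (u / R) * u + w / R * (2 * w) = 2 * ((u ^ 2 + w ^ 2) / R) := by ring
      rw [h5, ← hR2]
      field_simp

theorem propM_modelSpace (m : PotentialModel) : PropM (modelSpace m) := by
  classical
  intro x ε hε
  set ε' : ℝ := ε / 8 with hε'
  have hε'pos : 0 < ε' := by positivity
  -- finitely supported approximation
  obtain ⟨x', hx'span, hx'dist⟩ : ∃ x' ∈ Submodule.span ℝ (Set.range (coordVector m)),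
      ‖(x : Amb m) - x'‖ ≤ ε' := by
    have hxcl : (x : Amb m) ∈ closure
        (Submodule.span ℝ (Set.range (coordVector m)) : Set (Amb m)) := x.2
    obtain ⟨x', h1, h2⟩ := Metric.mem_closure_iff.mp hxcl ε' hε'pos
    exact ⟨x', h1, by rw [← dist_eq_norm]; exact h2.le⟩
  obtain ⟨c, hc⟩ := Finsupp.mem_span_range_iff_exists_finsupp.mp hx'span
  have hx'mem : x' ∈ modelSpace m := Submodule.le_topologicalClosure _ hx'span
  set A : Finset (List ℕ) := sufClosure c.support with hA
  -- the cofinite subspace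
  let T : modelSpace m →L[ℝ] (A → ℝ) :=
    ContinuousLinearMap.pi fun s => (ev (deltaTest m s.1)).comp (modelSpace m).subtypeL
  refine ⟨LinearMap.ker (T : modelSpace m →ₗ[ℝ] (A → ℝ)), T.isClosed_ker, ?_, ?_⟩
  · exact finiteDimensional_quot_ker _
  intro y hy
  have hyA : ∀ s ∈ A, ev (deltaTest m s) (y : Amb m) = 0 := by
    intro s hs
    have h1 : T y = 0 := hy
    exact congrFun h1 ⟨s, hs⟩
  -- evaluation of the combination
  have key : ∀ a b : ℝ, 0 ≤ a → 0 ≤ b → a ^ 2 + b ^ 2 ≤ 1 →
      ∀ f g : PotentialTest m, 2 * a * ev f x' + b * ev g (y : Amb m) ≤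
        ‖x' + y‖ + ‖x' - y‖ := by
    intro a b ha hb hab f g
    obtain ⟨h₁, h₂, ht₁, ht₂, hon, hoff⟩ := exists_comb (A := (A : Set (List ℕ)))
      (nil_mem_sufClosure _) (fun x v h => sufClosure_parent _ x v h) ha hb hab f.2 g.2
    let k₁ : PotentialTest m := ⟨h₁, ht₁⟩
    let k₂ : PotentialTest m := ⟨h₂, ht₂⟩
    have hx1 : ev k₁ x' = a * ev f x' := by
      rw [← hc, Finsupp.sum, map_sum, map_sum, Finset.mul_sum]
      refine Finset.sum_congr rfl fun s hs => ?_
      rw [map_smul, map_smul, ev_coord, ev_coord, smul_eq_mul, smul_eq_mul]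
      have h3 : k₁.1 s = a * f.1 s := (hon s (subset_sufClosure _ hs)).1
      rw [h3]; ring
    have hx2 : ev k₂ x' = a * ev f x' := by
      rw [← hc, Finsupp.sum, map_sum, map_sum, Finset.mul_sum]
      refine Finset.sum_congr rfl fun s hs => ?_
      rw [map_smul, map_smul, ev_coord, ev_coord, smul_eq_mul, smul_eq_mul]
      have h3 : k₂.1 s = a * f.1 s := (hon s (subset_sufClosure _ hs)).2
      rw [h3]; ring
    have hyd : ev k₁ (y : Amb m) - ev k₂ (y : Amb m) = b * ev g (y : Amb m) := by
      have h4 := vanish_of_coord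
        (ev k₁ - ev k₂ - b • ev g + b • ∑ s ∈ A, g.1 s • ev (deltaTest m s)) (fun t => by
          simp only [add_apply, sub_apply, smul_apply, sum_apply, ev_coord, smul_eq_mul]
          have h5 : ∑ s ∈ A, g.1 s * (deltaTest m s).1 t = if t ∈ A then g.1 t else 0 := by
            have h6 : ∀ s ∈ A, g.1 s * (deltaTest m s).1 t = if t = s then g.1 t else 0 :=
              fun s _ => deltaFun_mul g.2 s t
            rw [Finset.sum_congr rfl h6, Finset.sum_ite_eq]
          rw [h5]
          by_cases ht : t ∈ A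
          · rw [if_pos ht]
            have e1 : k₁.1 t = a * f.1 t := (hon t ht).1
            have e2 : k₂.1 t = a * f.1 t := (hon t ht).2
            rw [e1, e2]; ring
          · rw [if_neg ht]
            have e1 : k₁.1 t - k₂.1 t = b * g.1 t := hoff t ht
            rw [e1]; ring) (y : Amb m) y.2
      simp only [add_apply, sub_apply, smul_apply, sum_apply, smul_eq_mul] at h4
      have h7 : ∑ s ∈ A, g.1 s * ev (deltaTest m s) (y : Amb m) = 0 := by
        refine Finset.sum_eq_zero fun s hs => ?_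
        rw [hyA s hs, mul_zero]
      rw [h7] at h4
      linarith
    have n1 := (le_abs_self _).trans (abs_ev_le k₁ (x' + y))
    have n2 := (le_abs_self _).trans (abs_ev_le k₂ (x' - y))
    rw [map_add] at n1
    rw [map_sub] at n2
    linarith
  -- norming functionals
  obtain ⟨f, hf⟩ := exists_norming x' hx'mem hε'pos
  obtain ⟨g, hg⟩ := exists_norming (y : Amb m) y.2 hε'pos
  have hxx : ‖x‖ ≤ ‖x'‖ + ε' := by
    have h1 : ‖(x : Amb m)‖ ≤ ‖x'‖ + ‖(x : Amb m) - x'‖ := by
      have := norm_add_le x' ((x : Amb m) - x')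
      simpa using this
    have h2 : ‖x‖ = ‖(x : Amb m)‖ := rfl
    linarith
  -- passing from x' to x
  have hplus : ‖x' + y‖ ≤ ‖x + y‖ + ε' := by
    have h1 : ‖x' + (y : Amb m)‖ ≤ ‖(x : Amb m) + y‖ + ‖(x : Amb m) - x'‖ := by
      have h2 : x' + (y : Amb m) = ((x : Amb m) + y) - ((x : Amb m) - x') := by abel
      rw [h2]; exact norm_sub_le _ _
    have h3 : ‖x + y‖ = ‖(x : Amb m) + y‖ := rfl
    linarith
  have hminus : ‖x' - y‖ ≤ ‖x - y‖ + ε' := by
    have h1 : ‖x' - (y : Amb m)‖ ≤ ‖(x : Amb m) - y‖ + ‖(x : Amb m) - x'‖ := by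
      have h2 : x' - (y : Amb m) = ((x : Amb m) - y) - ((x : Amb m) - x') := by abel
      rw [h2]; exact norm_sub_le _ _
    have h3 : ‖x - y‖ = ‖(x : Amb m) - y‖ := rfl
    linarith
  have hyn : ‖(y : Amb m)‖ = ‖y‖ := rfl
  set R : ℝ := Real.sqrt (‖x'‖ ^ 2 + (‖y‖ / 2) ^ 2) with hR
  have hRx : Real.sqrt (‖x‖ ^ 2 + ‖y‖ ^ 2 / 4) ≤ R + ε' := by
    have h1 : ‖y‖ ^ 2 / 4 = (‖y‖ / 2) ^ 2 := by ring
    rw [h1]
    refine le_trans (Real.sqrt_le_sqrt ?_) (sqrt_add_le ‖x'‖ ε' (‖y‖ / 2) hε'pos.le)
    have := pow_le_pow_left₀ (norm_nonneg x) hxx 2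
    linarith
  have hmain : 2 * R - 3 * ε' ≤ ‖x' + y‖ + ‖x' - y‖ := by
    obtain ⟨a, b, ha0, hb0, ha1, hb1, hab, heq⟩ := exists_ab ‖x'‖ (‖y‖ / 2)
      (norm_nonneg _) (by positivity)
    have h1 := key a b ha0 hb0 hab f g
    have h2 : 2 * a * (‖x'‖ - ε') ≤ 2 * a * ev f x' :=
      mul_le_mul_of_nonneg_left hf.le (by positivity)
    have h3 : b * (‖y‖ - ε') ≤ b * ev g (y : Amb m) :=
      mul_le_mul_of_nonneg_left hg.le hb0
    have h6 : a * ε' ≤ 1 * ε' := mul_le_mul_of_nonneg_right ha1 hε'pos.le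
    have h7 : b * ε' ≤ 1 * ε' := mul_le_mul_of_nonneg_right hb1 hε'pos.le
    rw [← hR] at heq
    linarith
  have hfin : ‖x' + y‖ + ‖x' - y‖ ≤ ‖x + y‖ + ‖x - y‖ + 2 * ε' := by linarith
  linarith

end Crest.Agent.R125.Pot
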