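import Mathlib
import Crest.Prelude.Def_TreePotentials
import Crest.Agent.R125.Core
import Crest.Agent.R125.PotM

/-!
The bounded tree of path sums in the bounded-potential models (result 125).
-/

set_option autoImplicit false

namespace Crest.Agent.R125.Pot

open Crest.AnalysisR Crest.AnalysisR.TreePotential

/-- The path sum of coordinate vectors. -/
noncomputable def pathVec (m : PotentialModel) : List ℕ → Amb m
  | [] => coordVector m []
  | a :: v => pathVec m v + coordVector m (a :: v)

theorem ev_pathVec {m : PotentialModel} (h : PotentialTest m) (s : List ℕ) :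
    ev h (pathVec m s) = pathPotential h.1 s := by
  induction s with
  | nil => rfl
  | cons a v ih =>
    rw [pathVec, map_add, ih, ev_coord]
    rfl

theorem norm_pathVec_le (m : PotentialModel) (s : List ℕ) : ‖pathVec m s‖ ≤ 1 := by
  refine norm_le_of_ev _ fun f => ?_
  rw [ev_pathVec]
  exact f.2.1 s

theorem one_le_norm_coord {m : PotentialModel} {s : List ℕ}
    (hs : m = .rootlessSibling → s ≠ []) : 1 ≤ ‖coordVector m s‖ := by
  have h1 := abs_ev_le (deltaTest m s) (coordVector m s)
  rw [ev_coord] at h1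
  have h2 : (deltaTest m s).1 s = 1 := deltaFun_apply_self hs
  rw [h2] at h1
  simpa using h1

theorem one_le_norm_pathVec {m : PotentialModel} {s : List ℕ}
    (hs : m = .rootlessSibling → s ≠ []) : 1 ≤ ‖pathVec m s‖ := by
  have h1 := abs_ev_le (deltaTest m s) (pathVec m s)
  rw [ev_pathVec] at h1
  have h2 : pathPotential (deltaTest m s).1 s = 1 := by
    show pathPotential (deltaFun m s) s = 1
    rw [deltaFun_pos hs, pathPotential_single, if_pos (List.suffix_refl _)]
  rw [h2] at h1
  simpa using h1

theorem coordVector_mem (m : PotentialModel) (s : List ℕ) : coordVector m s ∈ modelSpace m :=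
  Submodule.le_topologicalClosure _ (Submodule.subset_span ⟨s, rfl⟩)

theorem pathVec_mem (m : PotentialModel) (s : List ℕ) : pathVec m s ∈ modelSpace m := by
  induction s with
  | nil => exact coordVector_mem m []
  | cons a v ih => exact Submodule.add_mem _ ih (coordVector_mem m _)

/-- upper `ℓ²` estimate for children. -/
theorem l2_upper_children (m : PotentialModel) (r : List ℕ) (A : Finset ℕ) (ε : ℕ → ℝ)
    (hε : ∀ n, |ε n| ≤ 1) :
    ‖∑ n ∈ A, ε n • coordVector m (n :: r)‖ ≤ 1 * Real.sqrt A.card := by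
  rw [one_mul]
  refine norm_le_of_ev _ fun f => ?_
  rw [map_sum]
  simp only [map_smul, ev_coord, smul_eq_mul]
  have h1 : ∑ n ∈ A, f.1 (n :: r) ^ 2 ≤ 1 := extra_children f.2.2 r A
  have h2 : ∑ n ∈ A, ε n ^ 2 ≤ A.card := by
    have : ∀ n ∈ A, ε n ^ 2 ≤ (1 : ℝ) := by
      intro n _
      have := hε n
      rw [← sq_abs]
      exact pow_le_one₀ (abs_nonneg _) this
    calc ∑ n ∈ A, ε n ^ 2 ≤ A.card • (1 : ℝ) := Finset.sum_le_card_nsmul A _ 1 this
      _ = A.card := by simp
  have h3 := Finset.sum_mul_sq_le_sq_mul_sq A ε (fun n => f.1 (n :: r))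
  have h4 : (∑ n ∈ A, ε n * f.1 (n :: r)) ^ 2 ≤ A.card := by
    have h5 : (∑ n ∈ A, ε n ^ 2) * ∑ n ∈ A, f.1 (n :: r) ^ 2 ≤ A.card * 1 :=
      mul_le_mul h2 h1 (Finset.sum_nonneg fun _ _ => sq_nonneg _) (by positivity)
    linarith
  exact Real.abs_le_sqrt h4

/-- No equivalent AUC norm on a model space. -/
theorem not_isAUC_model (m : PotentialModel) (N : (modelBanach m).X → ℝ)
    (hN : (modelBanach m).IsEquivNorm N) : ¬ (modelBanach m).IsAUC N := by
  let vec : List ℕ → modelSpace m := fun s => ⟨pathVec m s, pathVec_mem m s⟩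
  let co : List ℕ → modelSpace m := fun s => ⟨coordVector m s, coordVector_mem m s⟩
  refine not_isAUC_of_tree (X := modelSpace m)
    (Submodule.isClosed_topologicalClosure _).completeSpace_coe
    (fun _ => Set.range vec) 1 1 1 one_pos one_pos ?_ ?_ ?_ N hN
  · rintro _ _ ⟨s, rfl⟩
    exact norm_pathVec_le m s
  · intro _
    exact ⟨vec [0], ⟨[0], rfl⟩, one_le_norm_pathVec (by simp)⟩
  · rintro _ _ ⟨s, rfl⟩ S hS hfd η hη
    obtain ⟨n₀, hn₀⟩ := eventually_near_of_l2_upper (X := modelSpace m) (fun n => co (n :: s)) 1 (by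
      intro A ε hε
      have h1 := l2_upper_children m s A ε hε
      have h2 : ((∑ n ∈ A, ε n • co (n :: s) : modelSpace m) : Amb m) =
          ∑ n ∈ A, ε n • coordVector m (n :: s) := by
        push_cast
        rfl
      show ‖((∑ n ∈ A, ε n • co (n :: s) : modelSpace m) : Amb m)‖ ≤ _
      rw [h2]; exact h1) S hS hfd η hη
    obtain ⟨y, hy, hle⟩ := hn₀ n₀ le_rfl
    have hdiff : vec (n₀ :: s) - vec s = co (n₀ :: s) := by
      apply Subtype.ext
      show pathVec m (n₀ :: s) - pathVec m s = coordVector m (n₀ :: s)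
      rw [pathVec]; abel
    refine ⟨vec (n₀ :: s), ⟨_, rfl⟩, y, hy, ?_, ?_⟩
    · rw [hdiff]
      exact one_le_norm_coord (by simp)
    · rw [hdiff]; exact hle

theorem separable_modelSpace (m : PotentialModel) :
    TopologicalSpace.SeparableSpace (modelSpace m) := by
  have h1 : TopologicalSpace.IsSeparable (Set.range (coordVector m)) :=
    (Set.countable_range _).isSeparable
  have h2 : TopologicalSpace.IsSeparable
      (Submodule.span ℝ (Set.range (coordVector m)) : Set (Amb m)) := h1.span
  have h3 : TopologicalSpace.IsSeparable (modelSpace m : Set (Amb m)) := h2.closure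
  exact h3.separableSpace

end Crest.Agent.R125.Pot
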