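import Crest.Agent.R125.Prop

/-!
Task B of rid 125: reflexivity is invariant under isomorphism, Hilbert spaces are reflexive, and
`ℓ₂`-sums of reflexive spaces are reflexive.
-/

set_option autoImplicit false

namespace Crest.Agent.R125

open Filter Topology

theorem reflexive_of_equiv {X Y : Type*} [NormedAddCommGroup X] [NormedSpace ℝ X]
    [NormedAddCommGroup Y] [NormedSpace ℝ Y] (e : X ≃L[ℝ] Y) (h : Reflexive X) :
    Reflexive Y := by
  intro Ψ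
  let T : (X →L[ℝ] ℝ) →L[ℝ] (Y →L[ℝ] ℝ) :=
    (ContinuousLinearMap.compL ℝ Y X ℝ).flip (e.symm : Y →L[ℝ] X)
  obtain ⟨x, hx⟩ := h (Ψ.comp T)
  refine ⟨e x, ?_⟩
  ext ψ
  have h1 : T (ψ.comp (e : X →L[ℝ] Y)) = ψ := by
    ext y
    simp [T]
  have h2 := congrArg (fun Φ => Φ (ψ.comp (e : X →L[ℝ] Y))) hx
  simp only [NormedSpace.dual_def, ContinuousLinearMap.comp_apply, h1] at h2
  rw [NormedSpace.dual_def]
  simpa using h2

theorem reflexive_of_hilbert {H : Type*} [NormedAddCommGroup H] [InnerProductSpace ℝ H]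
    [CompleteSpace H] : Reflexive H := by
  intro Φ
  let T : H →L[ℝ] (H →L[ℝ] ℝ) := innerSL ℝ
  obtain ⟨x, hx⟩ := (InnerProductSpace.toDual ℝ H).surjective (Φ.comp T)
  refine ⟨x, ?_⟩
  ext φ
  obtain ⟨v, rfl⟩ := (InnerProductSpace.toDual ℝ H).surjective φ
  have h2 := congrArg (fun Φ => Φ v) hx
  simp only [ContinuousLinearMap.comp_apply] at h2
  rw [NormedSpace.dual_def]
  have h3 : T v = (InnerProductSpace.toDual ℝ H) v := by
    ext w
    rfl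
  rw [h3] at h2
  rw [← h2]
  simp [InnerProductSpace.toDual_apply_apply, real_inner_comm]

section lpsum

variable {X : ℕ → Type*} [∀ n, NormedAddCommGroup (X n)] [∀ n, NormedSpace ℝ (X n)]

theorem two_toReal_pos : 0 < (2 : ENNReal).toReal := by norm_num

/-- coordinate projection -/
noncomputable abbrev prj (X : ℕ → Type*) [∀ n, NormedAddCommGroup (X n)]
    [∀ n, NormedSpace ℝ (X n)] (n : ℕ) : lp X 2 →L[ℝ] X n := lp.evalCLM ℝ X 2 n

/-- coordinate inclusion -/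
noncomputable abbrev inc (X : ℕ → Type*) [∀ n, NormedAddCommGroup (X n)]
    [∀ n, NormedSpace ℝ (X n)] (n : ℕ) : X n →L[ℝ] lp X 2 :=
  lp.singleContinuousLinearMap ℝ X 2 n

theorem prj_apply (n : ℕ) (z : lp X 2) : prj X n z = z n := rfl

theorem inc_apply (n : ℕ) (z : X n) : inc X n z = lp.single 2 n z := rfl

omit [∀ n, NormedSpace ℝ (X n)] in
/-- partial sums of squares are bounded by the norm squared -/
theorem sum_sq_le (z : lp X 2) (A : Finset ℕ) : ∑ n ∈ A, ‖z n‖ ^ 2 ≤ ‖z‖ ^ 2 := by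
  have := lp.sum_rpow_le_norm_rpow (p := 2) two_toReal_pos z A
  simpa using this

/-- norm of a finite sum of single vectors -/
theorem norm_sum_inc (A : Finset ℕ) (z : ∀ n, X n) :
    ‖∑ n ∈ A, inc X n (z n)‖ = Real.sqrt (∑ n ∈ A, ‖z n‖ ^ 2) := by
  have := lp.norm_sum_single (p := 2) two_toReal_pos z A
  have h2 : ‖∑ n ∈ A, inc X n (z n)‖ ^ 2 = ∑ n ∈ A, ‖z n‖ ^ 2 := by
    simpa using this
  rw [← h2, Real.sqrt_sq (norm_nonneg _)]

theorem hasSum_inc (z : lp X 2) : HasSum (fun n => inc X n (z n)) z :=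
  lp.hasSum_single (by norm_num) z

/-- Cauchy-Schwarz for a finite family of functionals. -/
theorem sum_apply_le (A : Finset ℕ) (φ : ∀ n, X n →L[ℝ] ℝ) (z : lp X 2) :
    |∑ n ∈ A, φ n (z n)| ≤ Real.sqrt (∑ n ∈ A, ‖φ n‖ ^ 2) * ‖z‖ := by
  calc |∑ n ∈ A, φ n (z n)| ≤ ∑ n ∈ A, |φ n (z n)| := Finset.abs_sum_le_sum_abs _ _
    _ ≤ ∑ n ∈ A, ‖φ n‖ * ‖z n‖ := Finset.sum_le_sum fun n _ => (φ n).le_opNorm _
    _ ≤ Real.sqrt (∑ n ∈ A, ‖φ n‖ ^ 2) * Real.sqrt (∑ n ∈ A, ‖z n‖ ^ 2) :=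
      Real.sum_mul_le_sqrt_mul_sqrt _ _ _
    _ ≤ Real.sqrt (∑ n ∈ A, ‖φ n‖ ^ 2) * ‖z‖ := by
      refine mul_le_mul_of_nonneg_left ?_ (Real.sqrt_nonneg _)
      rw [← Real.sqrt_sq (norm_nonneg z)]
      exact Real.sqrt_le_sqrt (sum_sq_le z A)

theorem le_sq_of_le_mul_sqrt {S K : ℝ} (hS : 0 ≤ S) (_hK : 0 ≤ K) (h : S ≤ K * Real.sqrt S) :
    S ≤ K ^ 2 := by
  by_cases hz : Real.sqrt S = 0
  · have : S = 0 := (Real.sqrt_eq_zero hS).1 hz
    rw [this]; positivity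
  · have hpos : 0 < Real.sqrt S := lt_of_le_of_ne (Real.sqrt_nonneg _) (Ne.symm hz)
    have h3 : Real.sqrt S * Real.sqrt S ≤ K * Real.sqrt S := by
      rw [Real.mul_self_sqrt hS]; exact h
    have h4 : Real.sqrt S ≤ K := le_of_mul_le_mul_right h3 hpos
    calc S = Real.sqrt S ^ 2 := (Real.sq_sqrt hS).symm
      _ ≤ K ^ 2 := pow_le_pow_left₀ (Real.sqrt_nonneg _) h4 2

/-- The restrictions of a functional to the summands have square-summable norms. -/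
theorem sum_norm_sq_le (φ : lp X 2 →L[ℝ] ℝ) (A : Finset ℕ) :
    ∑ n ∈ A, ‖φ.comp (inc X n)‖ ^ 2 ≤ 4 * ‖φ‖ ^ 2 := by
  have hz : ∀ n, ∃ z : X n, ‖z‖ ≤ 1 ∧ ‖φ.comp (inc X n)‖ / 2 ≤ |φ (inc X n z)| := by
    intro n
    by_cases h0 : ‖φ.comp (inc X n)‖ = 0
    · exact ⟨0, by simp, by rw [h0]; simp⟩
    · have hpos : 0 < ‖φ.comp (inc X n)‖ := lt_of_le_of_ne (norm_nonneg _) (Ne.symm h0)
      obtain ⟨z, hz1, hz2⟩ := (φ.comp (inc X n)).exists_lt_apply_of_lt_opNorm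
        (show ‖φ.comp (inc X n)‖ / 2 < ‖φ.comp (inc X n)‖ by linarith)
      exact ⟨z, hz1.le, hz2.le⟩
  choose z hz1 hz2 using hz
  set c : ℕ → ℝ := fun n => φ (inc X n (z n)) with hc
  set S := ∑ n ∈ A, (c n) ^ 2 with hS
  have hS0 : 0 ≤ S := Finset.sum_nonneg fun _ _ => sq_nonneg _
  have h1 : S = φ (∑ n ∈ A, inc X n (c n • z n)) := by
    rw [map_sum, hS]
    refine Finset.sum_congr rfl fun n _ => ?_
    rw [map_smul, map_smul, smul_eq_mul, sq]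
  have h2 : S ≤ ‖φ‖ * Real.sqrt S := by
    calc S = φ (∑ n ∈ A, inc X n (c n • z n)) := h1
      _ ≤ ‖φ (∑ n ∈ A, inc X n (c n • z n))‖ := le_abs_self _
      _ ≤ ‖φ‖ * ‖∑ n ∈ A, inc X n (c n • z n)‖ := φ.le_opNorm _
      _ ≤ ‖φ‖ * Real.sqrt S := by
        refine mul_le_mul_of_nonneg_left ?_ (norm_nonneg _)
        rw [norm_sum_inc]
        refine Real.sqrt_le_sqrt (Finset.sum_le_sum fun n _ => ?_)
        rw [norm_smul, mul_pow, Real.norm_eq_abs, sq_abs]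
        have : ‖z n‖ ^ 2 ≤ 1 := by
          have := pow_le_pow_left₀ (norm_nonneg _) (hz1 n) 2
          simpa using this
        nlinarith [sq_nonneg (c n)]
  have h3 := le_sq_of_le_mul_sqrt hS0 (norm_nonneg _) h2
  have h4 : ∑ n ∈ A, ‖φ.comp (inc X n)‖ ^ 2 ≤ 4 * S := by
    rw [hS, Finset.mul_sum]
    refine Finset.sum_le_sum fun n _ => ?_
    have h5 : (‖φ.comp (inc X n)‖ / 2) ^ 2 ≤ |c n| ^ 2 :=
      pow_le_pow_left₀ (by positivity) (hz2 n) 2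
    rw [sq_abs] at h5
    nlinarith
  linarith

/-- A functional is approximated in norm by its finitely supported parts. -/
theorem exists_finset_approx (φ : lp X 2 →L[ℝ] ℝ) (ε : ℝ) (hε : 0 < ε) :
    ∃ A : Finset ℕ, ‖φ - ∑ n ∈ A, (φ.comp (inc X n)).comp (prj X n)‖ ≤ ε := by
  have hsum : Summable (fun n => ‖φ.comp (inc X n)‖ ^ 2) :=
    summable_of_sum_le (fun n => sq_nonneg _) (sum_norm_sq_le φ)
  obtain ⟨A, hA⟩ := summable_iff_vanishing_norm.1 hsum (ε ^ 2) (by positivity)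
  refine ⟨A, ?_⟩
  refine ContinuousLinearMap.opNorm_le_bound _ hε.le fun z => ?_
  have hz : HasSum (fun n => φ (inc X n (z n))) (φ z) := φ.hasSum (hasSum_inc z)
  have hlim : Tendsto (fun B : Finset ℕ => |∑ n ∈ B, φ (inc X n (z n)) -
      ∑ n ∈ A, φ (inc X n (z n))|) atTop
      (𝓝 |φ z - ∑ n ∈ A, φ (inc X n (z n))|) :=
    (hz.sub_const _).abs
  have h1 : (φ - ∑ n ∈ A, (φ.comp (inc X n)).comp (prj X n)) z =
      φ z - ∑ n ∈ A, φ (inc X n (z n)) := by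
    rw [sub_apply, sum_apply]
    rfl
  rw [h1, Real.norm_eq_abs]
  refine le_of_tendsto hlim ?_
  filter_upwards [eventually_ge_atTop A] with B hB
  have h2 : ∑ n ∈ B, φ (inc X n (z n)) - ∑ n ∈ A, φ (inc X n (z n)) =
      ∑ n ∈ B \ A, (φ.comp (inc X n)) (z n) := by
    rw [← Finset.sum_sdiff hB]
    simp
  rw [h2]
  refine (sum_apply_le (B \ A) (fun n => φ.comp (inc X n)) z).trans ?_
  refine mul_le_mul_of_nonneg_right ?_ (norm_nonneg _)
  have h3 := hA (B \ A) Finset.sdiff_disjoint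
  rw [Real.norm_eq_abs] at h3
  have h4 : ∑ n ∈ B \ A, ‖φ.comp (inc X n)‖ ^ 2 ≤ ε ^ 2 := (le_abs_self _).trans h3.le
  calc Real.sqrt (∑ n ∈ B \ A, ‖φ.comp (inc X n)‖ ^ 2) ≤ Real.sqrt (ε ^ 2) :=
        Real.sqrt_le_sqrt h4
    _ = ε := Real.sqrt_sq hε.le

end lpsum

theorem reflexive_lp_two (X : ℕ → Type*) [∀ n, NormedAddCommGroup (X n)]
    [∀ n, NormedSpace ℝ (X n)] (h : ∀ n, Reflexive (X n)) :
    Reflexive (lp X 2) := by
  intro Φ
  -- transpose of the projections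
  let T : ∀ n, (X n →L[ℝ] ℝ) →L[ℝ] (lp X 2 →L[ℝ] ℝ) := fun n =>
    (ContinuousLinearMap.compL ℝ (lp X 2) (X n) ℝ).flip (prj X n)
  have hT : ∀ n (ψ : X n →L[ℝ] ℝ), T n ψ = ψ.comp (prj X n) := fun n ψ => rfl
  have hx : ∀ n, ∃ x : X n, NormedSpace.inclusionInDoubleDual ℝ (X n) x = Φ.comp (T n) :=
    fun n => h n (Φ.comp (T n))
  choose x hx using hx
  have hx' : ∀ n (ψ : X n →L[ℝ] ℝ), ψ (x n) = Φ (ψ.comp (prj X n)) := by
    intro n ψ
    have := congrArg (fun Ψ => Ψ ψ) (hx n)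
    simp only [NormedSpace.dual_def, ContinuousLinearMap.comp_apply, hT] at this
    exact this
  have hbound : ∀ A : Finset ℕ, ∑ n ∈ A, ‖x n‖ ^ 2 ≤ ‖Φ‖ ^ 2 := by
    intro A
    choose g hg1 hg2 using fun n => exists_dual_vector'' ℝ (x n)
    set S := ∑ n ∈ A, ‖x n‖ ^ 2 with hS
    have hS0 : 0 ≤ S := Finset.sum_nonneg fun _ _ => sq_nonneg _
    set φ : lp X 2 →L[ℝ] ℝ := ∑ n ∈ A, (‖x n‖ • g n).comp (prj X n) with hφ
    have hφn : ‖φ‖ ≤ Real.sqrt S := by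
      refine ContinuousLinearMap.opNorm_le_bound _ (Real.sqrt_nonneg _) fun z => ?_
      have h1 : φ z = ∑ n ∈ A, (‖x n‖ • g n) (z n) := by
        rw [hφ, sum_apply]
        rfl
      rw [h1, Real.norm_eq_abs]
      refine (sum_apply_le A (fun n => ‖x n‖ • g n) z).trans ?_
      refine mul_le_mul_of_nonneg_right (Real.sqrt_le_sqrt ?_) (norm_nonneg _)
      refine Finset.sum_le_sum fun n _ => ?_
      refine pow_le_pow_left₀ (norm_nonneg _) ?_ 2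
      rw [norm_smul, norm_norm]
      exact mul_le_of_le_one_right (norm_nonneg _) (hg1 n)
    have h2 : Φ φ = S := by
      rw [hφ, map_sum, hS]
      refine Finset.sum_congr rfl fun n _ => ?_
      rw [← hx' n]
      have : g n (x n) = ‖x n‖ := by simpa using hg2 n
      simp [this, sq]
    have h3 : S ≤ ‖Φ‖ * Real.sqrt S := by
      calc S = Φ φ := h2.symm
        _ ≤ ‖Φ φ‖ := le_abs_self _
        _ ≤ ‖Φ‖ * ‖φ‖ := Φ.le_opNorm _
        _ ≤ ‖Φ‖ * Real.sqrt S := by gcongr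
    exact le_sq_of_le_mul_sqrt hS0 (ContinuousLinearMap.opNorm_nonneg Φ) h3
  have hmem : Memℓp x 2 := by
    refine memℓp_gen' (C := ‖Φ‖ ^ 2) fun A => ?_
    simpa using hbound A
  let xx : lp X 2 := ⟨x, hmem⟩
  refine ⟨xx, ?_⟩
  ext φ
  rw [NormedSpace.dual_def]
  refine eq_of_forall_dist_le fun ε hε => ?_
  set δ := ε / (‖Φ‖ + ‖xx‖ + 1) with hδ
  have hden : 0 < ‖Φ‖ + ‖xx‖ + 1 := by positivity
  have hδ0 : 0 < δ := by positivity
  obtain ⟨A, hA⟩ := exists_finset_approx φ δ hδ0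
  set ψ := ∑ n ∈ A, (φ.comp (inc X n)).comp (prj X n) with hψ
  have h1 : ψ xx = Φ ψ := by
    rw [hψ, map_sum, sum_apply]
    refine Finset.sum_congr rfl fun n _ => ?_
    rw [← hx' n]
    rfl
  have h2 : |φ xx - ψ xx| ≤ δ * ‖xx‖ := by
    have := (φ - ψ).le_opNorm xx
    rw [Real.norm_eq_abs, sub_apply] at this
    exact this.trans (mul_le_mul_of_nonneg_right hA (norm_nonneg _))
  have h3 : |Φ φ - Φ ψ| ≤ ‖Φ‖ * δ := by
    have := Φ.le_opNorm (φ - ψ)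
    rw [map_sub, Real.norm_eq_abs] at this
    exact this.trans (mul_le_mul_of_nonneg_left hA (norm_nonneg _))
  rw [Real.dist_eq]
  have h4 : φ xx - Φ φ = (φ xx - ψ xx) - (Φ φ - Φ ψ) := by rw [h1]; ring
  rw [h4]
  calc |(φ xx - ψ xx) - (Φ φ - Φ ψ)| ≤ |φ xx - ψ xx| + |Φ φ - Φ ψ| := abs_sub _ _
    _ ≤ δ * ‖xx‖ + ‖Φ‖ * δ := add_le_add h2 h3
    _ ≤ δ * (‖Φ‖ + ‖xx‖ + 1) := by nlinarith
    _ = ε := by rw [hδ]; field_simp

end Crest.Agent.R125
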