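import Mathlib
import Crest.Prelude.Def_TreePotentials
import Crest.Agent.R125.Core
import Crest.Agent.R125.PotTree
import Crest.Agent.R125.Moduli
import Crest.Agent.R125.Reflexive

/-!
The finite-depth pieces of the global bounded-potential model (result 125, S0166).
-/

set_option autoImplicit false

namespace Crest.Agent.R125.Depth

open Crest.AnalysisR Crest.AnalysisR.TreePotential Crest.Agent.R125 Crest.Agent.R125.Pot

/-- the global model -/
abbrev gm : PotentialModel := PotentialModel.global

/-- vertices of depth at most `n` -/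
abbrev V (n : ℕ) := {s : List ℕ // s.length ≤ n}

/-- the Hilbert space on the vertices of depth at most `n` -/
abbrev H (n : ℕ) := lp (fun _ : V n => ℝ) 2

open scoped Classical in
/-- suffixes as a finset -/
noncomputable def suf (s : List ℕ) : Finset (List ℕ) := s.tails.toFinset

theorem mem_suf {s u : List ℕ} : u ∈ suf s ↔ u <:+ s := by
  simp [suf]

theorem pathPotential_eq_sum (f : List ℕ → ℝ) (s : List ℕ) :
    pathPotential f s = ∑ u ∈ suf s, f u := by
  classical
  induction s with
  | nil => simp [pathPotential, suf]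
  | cons a v ih =>
    have h1 : suf (a :: v) = insert (a :: v) (suf v) := by
      ext u
      rw [mem_suf, Finset.mem_insert, mem_suf, List.suffix_cons_iff]
    have h2 : (a :: v) ∉ suf v := by
      rw [mem_suf]
      intro h
      have := h.length_le
      simp at this
    rw [h1, Finset.sum_insert h2, pathPotential, ih, add_comm]

theorem pathPotential_sq_le {n : ℕ} {K : ℝ} (f : List ℕ → ℝ)
    (h0 : ∀ s : List ℕ, n < s.length → f s = 0)
    (hK : ∀ A : Finset (List ℕ), ∑ u ∈ A, f u ^ 2 ≤ K) (s : List ℕ) :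
    pathPotential f s ^ 2 ≤ (n + 1) * K := by
  classical
  have hK0 : 0 ≤ K := by simpa using hK ∅
  set B : Finset (List ℕ) := (suf s).filter (fun u => u.length ≤ n) with hB
  have h1 : pathPotential f s = ∑ u ∈ B, f u := by
    rw [pathPotential_eq_sum, hB, Finset.sum_filter]
    refine Finset.sum_congr rfl fun u _ => ?_
    split_ifs with h
    · rfl
    · exact h0 u (by omega)
  have h2 : B.card ≤ n + 1 := by
    have h3 : B.card ≤ (Finset.range (n + 1)).card := by
      refine Finset.card_le_card_of_injOn List.length ?_ ?_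
      · intro u hu
        have hu' : u ∈ B := hu
        rw [hB, Finset.mem_filter] at hu'
        simp only [Finset.coe_range, Set.mem_Iio]
        omega
      · intro u hu v hv huv
        have hu' : u ∈ B := hu
        have hv' : v ∈ B := hv
        rw [hB, Finset.mem_filter, mem_suf] at hu' hv'
        exact (List.suffix_of_suffix_length_le hu'.1 hv'.1 huv.le).eq_of_length huv
    simpa using h3
  rw [h1]
  have h4 := sq_sum_le_card_mul_sum_sq (s := B) (f := f)
  have h5 : (B.card : ℝ) ≤ n + 1 := by exact_mod_cast h2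
  calc (∑ u ∈ B, f u) ^ 2 ≤ B.card * ∑ u ∈ B, f u ^ 2 := h4
    _ ≤ (n + 1) * K := mul_le_mul h5 (hK B) (Finset.sum_nonneg fun _ _ => sq_nonneg _)
        (by positivity)

/-- restriction of a test to the vertices of depth at most `n` -/
noncomputable def restr (n : ℕ) (f : PotentialTest gm) : H n :=
  ⟨fun s => f.1 s.1, by
    refine memℓp_gen' (C := 1) fun A => ?_
    have h := f.2.2 (A.map ⟨Subtype.val, Subtype.val_injective⟩)
    rw [Finset.sum_map] at h
    simpa using h⟩

theorem restr_apply (n : ℕ) (f : PotentialTest gm) (s : V n) : restr n f s = f.1 s.1 := rfl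

theorem norm_restr_le (n : ℕ) (f : PotentialTest gm) : ‖restr n f‖ ≤ 1 := by
  refine lp.norm_le_of_forall_sum_le (by norm_num) zero_le_one fun A => ?_
  have h := f.2.2 (A.map ⟨Subtype.val, Subtype.val_injective⟩)
  rw [Finset.sum_map] at h
  simpa [restr_apply] using h

theorem abs_inner_restr_le (n : ℕ) (f : PotentialTest gm) (x : H n) :
    |inner ℝ (restr n f) x| ≤ ‖x‖ := by
  refine (abs_real_inner_le_norm _ _).trans ?_
  calc ‖restr n f‖ * ‖x‖ ≤ 1 * ‖x‖ :=
        mul_le_mul_of_nonneg_right (norm_restr_le n f) (norm_nonneg _)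
    _ = ‖x‖ := one_mul _

/-- the embedding of the Hilbert space into the ambient space, as a linear map -/
noncomputable def lamLin (n : ℕ) : H n →ₗ[ℝ] Amb gm where
  toFun x := ⟨fun f => inner ℝ (restr n f) x, memℓp_infty ⟨‖x‖, by
    rintro _ ⟨f, rfl⟩
    exact abs_inner_restr_le n f x⟩⟩
  map_add' x y := by
    ext f
    exact inner_add_right _ _ _
  map_smul' c x := by
    ext f
    exact inner_smul_right _ _ _

/-- the embedding of the Hilbert space into the ambient space -/
noncomputable def lam (n : ℕ) : H n →L[ℝ] Amb gm :=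
  (lamLin n).mkContinuous 1 fun x => by
    rw [one_mul]
    exact lp.norm_le_of_forall_le' _ fun f => abs_inner_restr_le n f x

theorem ev_lam (n : ℕ) (f : PotentialTest gm) (x : H n) :
    ev f (lam n x) = inner ℝ (restr n f) x := rfl

open scoped Classical in
theorem lam_single (n : ℕ) (s : V n) :
    lam n (lp.single 2 s (1 : ℝ)) = coordVector gm s.1 := by
  ext f
  show inner ℝ (restr n f) (lp.single 2 s (1 : ℝ)) = f.1 s.1
  rw [lp.inner_single_right]
  simp [restr_apply]

theorem lam_mem (n : ℕ) (x : H n) : lam n x ∈ modelSpace gm := by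
  classical
  have h1 : HasSum (fun s : V n => lp.single 2 s (x s)) x := lp.hasSum_single (by norm_num) x
  have h2 : HasSum (fun s : V n => lam n (lp.single 2 s (x s))) (lam n x) :=
    h1.mapL (lam n)
  refine (Submodule.isClosed_topologicalClosure _).mem_of_tendsto h2 ?_
  refine Filter.Eventually.of_forall fun A => ?_
  refine Submodule.sum_mem _ fun s _ => ?_
  have h3 : lp.single 2 s (x s) = (x s) • (lp.single 2 s (1 : ℝ) : H n) := by
    rw [← lp.single_smul]
    simp
  rw [h3, map_smul, lam_single]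
  exact Submodule.smul_mem _ _ (coordVector_mem gm s.1)

/-- lower bound for the embedding -/
theorem norm_le_lam (n : ℕ) (x : H n) : ‖x‖ ≤ Real.sqrt (n + 1) * ‖lam n x‖ := by
  classical
  rcases (norm_nonneg x).eq_or_lt with h0 | hpos
  · rw [← h0]; positivity
  have hs : 0 < Real.sqrt ((n : ℝ) + 1) := Real.sqrt_pos.mpr (by positivity)
  have hss : Real.sqrt ((n : ℝ) + 1) ^ 2 = n + 1 := Real.sq_sqrt (by positivity)
  set r : ℝ := (‖x‖ * Real.sqrt ((n : ℝ) + 1))⁻¹ with hr
  have hrpos : 0 < r := by positivity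
  have hr2 : r ^ 2 * ‖x‖ ^ 2 * (n + 1) = 1 := by
    rw [hr, inv_pow, mul_pow, hss]
    field_simp
  let f : List ℕ → ℝ := fun s => if h : s.length ≤ n then r * x ⟨s, h⟩ else 0
  have hf0 : ∀ s : List ℕ, n < s.length → f s = 0 := by
    intro s hs
    exact dif_neg (by omega)
  have hsumx : ∀ B : Finset (V n), ∑ s ∈ B, (x s) ^ 2 ≤ ‖x‖ ^ 2 := by
    intro B
    have := lp.sum_rpow_le_norm_rpow (p := 2) (by norm_num) x B
    simpa using this
  have hfK : ∀ A : Finset (List ℕ), ∑ u ∈ A, f u ^ 2 ≤ r ^ 2 * ‖x‖ ^ 2 := by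
    intro A
    have h1 : ∑ u ∈ A, f u ^ 2 = ∑ s ∈ A.subtype (fun s : List ℕ => s.length ≤ n), r ^ 2 * (x s) ^ 2 := by
      rw [← Finset.sum_filter_add_sum_filter_not A (fun s : List ℕ => s.length ≤ n)]
      have h2 : ∑ u ∈ A with ¬ u.length ≤ n, f u ^ 2 = 0 := by
        refine Finset.sum_eq_zero fun u hu => ?_
        rw [Finset.mem_filter] at hu
        rw [hf0 u (by omega)]; simp
      rw [h2, add_zero]
      rw [← Finset.subtype_map (fun s : List ℕ => s.length ≤ n), Finset.sum_map]
      refine Finset.sum_congr rfl fun s _ => ?_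
      have h3 : f s.1 = r * x s := dif_pos s.2
      show f s.1 ^ 2 = _
      rw [h3]; ring
    rw [h1, ← Finset.mul_sum]
    exact mul_le_mul_of_nonneg_left (hsumx _) (sq_nonneg _)
  have hn1 : (0 : ℝ) < n + 1 := by positivity
  have hK1 : r ^ 2 * ‖x‖ ^ 2 ≤ 1 := by
    have h1 : r ^ 2 * ‖x‖ ^ 2 * 1 ≤ r ^ 2 * ‖x‖ ^ 2 * (n + 1) :=
      mul_le_mul_of_nonneg_left (by
        have : (0 : ℝ) ≤ n := by positivity
        linarith) (by positivity)
    linarith
  have hft : IsTest gm f := by
    refine ⟨fun s => ?_, fun A => (hfK A).trans hK1⟩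
    have h1 := pathPotential_sq_le f hf0 hfK s
    have h2 : pathPotential f s ^ 2 ≤ 1 := by linarith
    rw [← sq_abs] at h2
    exact (sq_le_one_iff₀ (abs_nonneg _)).mp h2
  let F : PotentialTest gm := ⟨f, hft⟩
  have h1 : restr n F = r • x := by
    ext s
    have h3 : f s.1 = r * x s := dif_pos s.2
    show f s.1 = _
    rw [h3]; rfl
  have h2 : ev F (lam n x) = r * ‖x‖ ^ 2 := by
    rw [ev_lam, h1, real_inner_smul_left, real_inner_self_eq_norm_sq]
  have h3 := (le_abs_self _).trans (abs_ev_le F (lam n x))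
  rw [h2] at h3
  have h4 : r * ‖x‖ ^ 2 * Real.sqrt ((n : ℝ) + 1) = ‖x‖ := by
    rw [hr]
    field_simp
  calc ‖x‖ = Real.sqrt ((n : ℝ) + 1) * (r * ‖x‖ ^ 2) := by rw [mul_comm]; exact h4.symm
    _ ≤ Real.sqrt ((n : ℝ) + 1) * ‖lam n x‖ := mul_le_mul_of_nonneg_left h3 hs.le

theorem antilip (n : ℕ) : ∃ K : NNReal, AntilipschitzWith K (lam n) :=
  ⟨⟨Real.sqrt (n + 1), Real.sqrt_nonneg _⟩,
    AddMonoidHomClass.antilipschitz_of_bound (lam n) fun x => norm_le_lam n x⟩

theorem lam_injective (n : ℕ) : Function.Injective (lam n) := by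
  obtain ⟨K, hK⟩ := antilip n
  exact hK.injective

theorem lam_isClosed_range (n : ℕ) : IsClosed (Set.range (lam n)) := by
  obtain ⟨K, hK⟩ := antilip n
  exact hK.isClosed_range (lam n).uniformContinuous

/-- the depth-`n` piece -/
noncomputable def Y (n : ℕ) : Submodule ℝ (Amb gm) := LinearMap.range (lam n : H n →ₗ[ℝ] Amb gm)

theorem mem_Y {n : ℕ} {y : Amb gm} : y ∈ Y n ↔ ∃ x, lam n x = y := Iff.rfl

/-- the isomorphism with the Hilbert space -/
noncomputable def equivY (n : ℕ) : H n ≃L[ℝ] Y n :=
  (lam n).equivRange (lam_injective n) (lam_isClosed_range n)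

theorem isClosed_Y (n : ℕ) : IsClosed (Y n : Set (Amb gm)) := by
  have : (Y n : Set (Amb gm)) = Set.range (lam n) := by
    ext y; rfl
  rw [this]
  exact lam_isClosed_range n

instance completeSpace_Y (n : ℕ) : CompleteSpace (Y n) := (isClosed_Y n).completeSpace_coe

theorem reflexive_Y (n : ℕ) : Reflexive (Y n) :=
  reflexive_of_equiv (equivY n) reflexive_of_hilbert

theorem Y_le (n : ℕ) : Y n ≤ modelSpace gm := by
  rintro _ ⟨x, rfl⟩
  exact lam_mem n x

theorem propM_Y (n : ℕ) : PropM (Y n) :=
  propM_of_isometry (X := modelSpace gm) (Y := Y n)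
    ⟨Submodule.inclusion (Y_le n), fun _ => rfl⟩ (propM_modelSpace gm)

theorem separable_Y (n : ℕ) : TopologicalSpace.SeparableSpace (Y n) := by
  have h1 : TopologicalSpace.SeparableSpace (modelSpace gm) := separable_modelSpace gm
  have h2 : TopologicalSpace.IsSeparable (modelSpace gm : Set (Amb gm)) := by
    rw [← Subtype.range_coe (s := (modelSpace gm : Set (Amb gm)))]
    exact TopologicalSpace.isSeparable_range continuous_subtype_val
  exact (h2.mono (Y_le n)).separableSpace

open scoped Classical in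
theorem coordVector_mem_Y {n : ℕ} {s : List ℕ} (hs : s.length ≤ n) : coordVector gm s ∈ Y n :=
  ⟨lp.single 2 (⟨s, hs⟩ : V n) (1 : ℝ), lam_single n ⟨s, hs⟩⟩

theorem pathVec_mem_Y {n : ℕ} {s : List ℕ} (hs : s.length ≤ n) : pathVec gm s ∈ Y n := by
  induction s with
  | nil => exact coordVector_mem_Y hs
  | cons a v ih =>
    refine Submodule.add_mem _ (ih ?_) (coordVector_mem_Y hs)
    simp only [List.length_cons] at hs
    omega

end Crest.Agent.R125.Depth
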