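import Mathlib
import Crest.Agent.R125.Prop

/-!
Distortion lower bound for the countably branching diamonds from property (M) (result 125, S0166).
-/

set_option autoImplicit false

namespace Crest.Agent.R125

open Crest.AnalysisR

namespace Diamond

/-- Old vertices in the next diamond. -/
def vl {k : ℕ} (u : DiamondVertex k) : DiamondVertex (k + 1) :=
  (Sum.inl u : DiamondVertex k ⊕ (DiamondEdge k × ℕ))

/-- New middle vertices in the next diamond. -/
def vm {k : ℕ} (e : DiamondEdge k) (i : ℕ) : DiamondVertex (k + 1) :=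
  (Sum.inr (e, i) : DiamondVertex k ⊕ (DiamondEdge k × ℕ))

/-- Edges of the next diamond. -/
def ed {k : ℕ} (e : DiamondEdge k) (i : ℕ) (b : Bool) : DiamondEdge (k + 1) :=
  ((e, i, b) : DiamondEdge k × ℕ × Bool)

lemma vertex_cases {k : ℕ} (x : DiamondVertex (k + 1)) :
    (∃ u, x = vl u) ∨ ∃ e i, x = vm e i := by
  rcases (show DiamondVertex k ⊕ (DiamondEdge k × ℕ) from x) with u | ⟨e, i⟩
  · exact Or.inl ⟨u, rfl⟩
  · exact Or.inr ⟨e, i, rfl⟩

lemma edge_cases {k : ℕ} (x : DiamondEdge (k + 1)) : ∃ e i b, x = ed e i b := by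
  obtain ⟨e, i, b⟩ := (show DiamondEdge k × ℕ × Bool from x)
  exact ⟨e, i, b, rfl⟩

lemma src_false {k : ℕ} (e : DiamondEdge k) (i : ℕ) :
    diamondSrc (k + 1) (ed e i false) = vl (diamondSrc k e) := rfl
lemma src_true {k : ℕ} (e : DiamondEdge k) (i : ℕ) :
    diamondSrc (k + 1) (ed e i true) = vm e i := rfl
lemma tgt_false {k : ℕ} (e : DiamondEdge k) (i : ℕ) :
    diamondTgt (k + 1) (ed e i false) = vm e i := rfl
lemma tgt_true {k : ℕ} (e : DiamondEdge k) (i : ℕ) :
    diamondTgt (k + 1) (ed e i true) = vl (diamondTgt k e) := rfl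

lemma vl_ne_vm {k : ℕ} (u : DiamondVertex k) (e : DiamondEdge k) (i : ℕ) : vl u ≠ vm e i := by
  intro h
  exact Sum.inl_ne_inr (show (Sum.inl u : DiamondVertex k ⊕ (DiamondEdge k × ℕ)) =
    Sum.inr (e, i) from h)

lemma vm_inj {k : ℕ} {e e' : DiamondEdge k} {i i' : ℕ} (h : vm e i = vm e' i') : i = i' := by
  have h2 := Sum.inr_injective (show (Sum.inr (e, i) : DiamondVertex k ⊕ (DiamondEdge k × ℕ)) =
    Sum.inr (e', i') from h)
  exact (Prod.mk.inj h2).2

lemma src_ne_tgt : ∀ (k : ℕ) (e : DiamondEdge k), diamondSrc k e ≠ diamondTgt k e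
  | 0, _ => by
    intro h
    exact Bool.false_ne_true h
  | k + 1, x => by
    obtain ⟨e, i, b, rfl⟩ := edge_cases x
    cases b
    · exact vl_ne_vm _ _ _
    · exact (vl_ne_vm _ _ _).symm

lemma adj_edge (k : ℕ) (e : DiamondEdge k) :
    (diamondGraph k).Adj (diamondSrc k e) (diamondTgt k e) := by
  rw [diamondGraph, SimpleGraph.fromRel_adj]
  exact ⟨src_ne_tgt k e, Or.inl ⟨e, rfl, rfl⟩⟩

lemma adj_iff (k : ℕ) (u v : DiamondVertex k) : (diamondGraph k).Adj u v ↔
    (∃ e, diamondSrc k e = u ∧ diamondTgt k e = v) ∨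
      (∃ e, diamondSrc k e = v ∧ diamondTgt k e = u) := by
  rw [diamondGraph, SimpleGraph.fromRel_adj]
  constructor
  · rintro ⟨_, h | h⟩
    · exact Or.inl h
    · exact Or.inr h
  · rintro (⟨e, rfl, rfl⟩ | ⟨e, rfl, rfl⟩)
    · exact ⟨src_ne_tgt k e, Or.inl ⟨e, rfl, rfl⟩⟩
    · exact ⟨(src_ne_tgt k e).symm, Or.inr ⟨e, rfl, rfl⟩⟩

lemma adj_src_mid (k : ℕ) (e : DiamondEdge k) (i : ℕ) :
    (diamondGraph (k + 1)).Adj (vl (diamondSrc k e)) (vm e i) :=
  adj_edge (k + 1) (ed e i false)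

lemma adj_mid_tgt (k : ℕ) (e : DiamondEdge k) (i : ℕ) :
    (diamondGraph (k + 1)).Adj (vm e i) (vl (diamondTgt k e)) :=
  adj_edge (k + 1) (ed e i true)

lemma not_adj_mid_mid (k : ℕ) (e e' : DiamondEdge k) (i i' : ℕ) :
    ¬ (diamondGraph (k + 1)).Adj (vm e i) (vm e' i') := by
  rw [adj_iff]
  rintro (⟨x, h1, h2⟩ | ⟨x, h1, h2⟩) <;> obtain ⟨e, i, b, rfl⟩ := edge_cases x <;> cases b
  · exact vl_ne_vm _ _ _ h1
  · exact vl_ne_vm _ _ _ h2
  · exact vl_ne_vm _ _ _ h1
  · exact vl_ne_vm _ _ _ h2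

lemma reachable_inl {k : ℕ} {u v : DiamondVertex k} (h : (diamondGraph k).Reachable u v) :
    (diamondGraph (k + 1)).Reachable (vl u) (vl v) := by
  obtain ⟨w⟩ := h
  induction w with
  | nil => exact SimpleGraph.Reachable.refl _
  | cons hadj _ ih =>
    refine SimpleGraph.Reachable.trans ?_ ih
    rcases (adj_iff _ _ _).1 hadj with ⟨e, rfl, rfl⟩ | ⟨e, rfl, rfl⟩
    · exact (adj_src_mid k e 0).reachable.trans (adj_mid_tgt k e 0).reachable
    · exact ((adj_src_mid k e 0).reachable.trans (adj_mid_tgt k e 0).reachable).symm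

lemma connected : ∀ k : ℕ, (diamondGraph k).Connected
  | 0 => by
    have : Nonempty (DiamondVertex 0) := ⟨false⟩
    refine ⟨?_⟩
    have h : (diamondGraph 0).Adj false true := adj_edge 0 ()
    intro u v
    change Bool at u
    change Bool at v
    cases u <;> cases v
    · exact SimpleGraph.Reachable.refl _
    · exact h.reachable
    · exact h.symm.reachable
    · exact SimpleGraph.Reachable.refl _
  | k + 1 => by
    have ih := connected k
    have : Nonempty (DiamondVertex k) := ih.nonempty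
    have : Nonempty (DiamondVertex (k + 1)) := ⟨vl (Classical.arbitrary _)⟩
    refine ⟨?_⟩
    have key : ∀ x : DiamondVertex (k + 1), ∃ w : DiamondVertex k,
        (diamondGraph (k + 1)).Reachable x (vl w) := by
      intro x
      rcases vertex_cases x with ⟨w, rfl⟩ | ⟨e, i, rfl⟩
      · exact ⟨w, SimpleGraph.Reachable.refl _⟩
      · exact ⟨_, (adj_mid_tgt k e i).reachable⟩
    intro x y
    obtain ⟨u, hu⟩ := key x
    obtain ⟨v, hv⟩ := key y
    exact hu.trans ((reachable_inl (ih.preconnected u v)).trans hv.symm)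

/-- The comparison function used for the doubling of distances. -/
noncomputable def cmp (k : ℕ) (u : DiamondVertex k) (x : DiamondVertex (k + 1)) : ℤ :=
  Sum.elim (fun w => 2 * ((diamondGraph k).dist u w : ℤ))
    (fun p : DiamondEdge k × ℕ => ((diamondGraph k).dist u (diamondSrc k p.1) : ℤ) +
      ((diamondGraph k).dist u (diamondTgt k p.1) : ℤ))
    (show DiamondVertex k ⊕ (DiamondEdge k × ℕ) from x)

lemma cmp_vl (k : ℕ) (u w : DiamondVertex k) :
    cmp k u (vl w) = 2 * ((diamondGraph k).dist u w : ℤ) := rfl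

lemma cmp_vm (k : ℕ) (u : DiamondVertex k) (e : DiamondEdge k) (i : ℕ) :
    cmp k u (vm e i) = ((diamondGraph k).dist u (diamondSrc k e) : ℤ) +
      ((diamondGraph k).dist u (diamondTgt k e) : ℤ) := rfl

lemma dist_src_tgt_le (k : ℕ) (u : DiamondVertex k) (e : DiamondEdge k) :
    ((diamondGraph k).dist u (diamondSrc k e) : ℤ) ≤
      (diamondGraph k).dist u (diamondTgt k e) + 1 ∧
    ((diamondGraph k).dist u (diamondTgt k e) : ℤ) ≤
      (diamondGraph k).dist u (diamondSrc k e) + 1 := by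
  have h1 : (diamondGraph k).dist (diamondSrc k e) (diamondTgt k e) = 1 :=
    SimpleGraph.dist_eq_one_iff_adj.2 (adj_edge k e)
  have h2 : (diamondGraph k).dist (diamondTgt k e) (diamondSrc k e) = 1 :=
    SimpleGraph.dist_eq_one_iff_adj.2 (adj_edge k e).symm
  have h3 := (connected k).dist_triangle (u := u) (v := diamondTgt k e) (w := diamondSrc k e)
  have h4 := (connected k).dist_triangle (u := u) (v := diamondSrc k e) (w := diamondTgt k e)
  omega

lemma cmp_adj (k : ℕ) (u : DiamondVertex k) (x y : DiamondVertex (k + 1))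
    (h : (diamondGraph (k + 1)).Adj x y) : cmp k u y ≤ cmp k u x + 1 := by
  rcases (adj_iff _ _ _).1 h with ⟨z, rfl, rfl⟩ | ⟨z, rfl, rfl⟩ <;>
    obtain ⟨e, i, b, rfl⟩ := edge_cases z <;>
    have h1 := dist_src_tgt_le k u e <;> cases b <;>
    simp only [src_false, src_true, tgt_false, tgt_true, cmp_vl, cmp_vm] <;> omega

lemma cmp_walk (k : ℕ) (u : DiamondVertex k) {x y : DiamondVertex (k + 1)}
    (w : (diamondGraph (k + 1)).Walk x y) : cmp k u y ≤ cmp k u x + w.length := by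
  induction w with
  | nil => simp
  | cons hadj _ ih =>
    have h1 := cmp_adj k u _ _ hadj
    rw [SimpleGraph.Walk.length_cons]
    push_cast
    linarith

lemma two_mul_dist_le (k : ℕ) (u v : DiamondVertex k) :
    2 * diamondDist k u v ≤ diamondDist (k + 1) (vl u) (vl v) := by
  obtain ⟨w, hw⟩ := (connected (k + 1)).exists_walk_length_eq_dist (vl u) (vl v)
  have h := cmp_walk k u w
  simp only [cmp_vl, SimpleGraph.dist_self] at h
  rw [hw] at h
  unfold diamondDist
  omega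

lemma two_le_dist_mid (k : ℕ) (e : DiamondEdge k) {i j : ℕ} (hij : i ≠ j) :
    2 ≤ diamondDist (k + 1) (vm e i) (vm e j) := by
  refine (connected (k + 1)).one_lt_dist_of_ne_of_not_adj ?_ (not_adj_mid_mid k _ _ _ _)
  intro h
  exact hij (vm_inj h)

lemma nonempty_edge : ∀ n, Nonempty (DiamondEdge n)
  | 0 => ⟨()⟩
  | n + 1 => (nonempty_edge n).map fun e => ed e 0 true

lemma dist_edge (k : ℕ) (e : DiamondEdge k) :
    diamondDist k (diamondSrc k e) (diamondTgt k e) = 1 :=
  SimpleGraph.dist_eq_one_iff_adj.2 (adj_edge k e)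

variable {X : Type*} [NormedAddCommGroup X] [NormedSpace ℝ X]

/-- In a bounded sequence two members differ by a vector close to a given closed
finite-codimensional subspace. -/
lemma exists_pair_near (S : Submodule ℝ X) (hS : IsClosed (S : Set X))
    (hfin : FiniteDimensional ℝ (X ⧸ S)) (w : ℕ → X) (L : ℝ) (hw : ∀ n, ‖w n‖ ≤ L)
    (ε : ℝ) (hε : 0 < ε) : ∃ i j : ℕ, i ≠ j ∧ ∃ y ∈ S, ‖w i - w j - y‖ ≤ ε := by
  have : IsClosed (S : Set X) := hS
  have : ProperSpace (X ⧸ S) := FiniteDimensional.proper ℝ (X ⧸ S)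
  have hb : ∀ n, (Submodule.Quotient.mk (w n) : X ⧸ S) ∈ Metric.closedBall (0 : X ⧸ S) L := by
    intro n
    rw [mem_closedBall_zero_iff]
    exact (Submodule.Quotient.norm_mk_le S (w n)).trans (hw n)
  obtain ⟨a, _, φ, hφ, hlim⟩ := tendsto_subseq_of_bounded Metric.isBounded_closedBall hb
  have hc : CauchySeq ((fun n => (Submodule.Quotient.mk (w n) : X ⧸ S)) ∘ φ) := hlim.cauchySeq
  rw [Metric.cauchySeq_iff] at hc
  obtain ⟨n0, hn0⟩ := hc (ε / 2) (by positivity)
  have h1 := hn0 n0 le_rfl (n0 + 1) (Nat.le_succ _)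
  refine ⟨φ n0, φ (n0 + 1), (hφ (Nat.lt_succ_self _)).ne, ?_⟩
  simp only [Function.comp] at h1
  rw [dist_eq_norm, ← Submodule.Quotient.mk_sub] at h1
  obtain ⟨m, hm, hmn⟩ := Submodule.Quotient.norm_mk_lt
    (Submodule.Quotient.mk (w (φ n0) - w (φ (n0 + 1))) : X ⧸ S) (ε := ε / 2) (by positivity)
  refine ⟨w (φ n0) - w (φ (n0 + 1)) - m, ?_, ?_⟩
  · rw [← Submodule.Quotient.eq]
    exact hm.symm
  · rw [sub_sub_cancel]
    linarith

/-- `ℓ²`-type Lipschitz bound. -/
lemma sqrt_add_le (a b c : ℝ) (hb : 0 ≤ b) (hc : 0 ≤ c) :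
    Real.sqrt (a ^ 2 + (b + c) ^ 2 / 4) ≤ Real.sqrt (a ^ 2 + b ^ 2 / 4) + c / 2 := by
  have h0 : 0 ≤ a ^ 2 + b ^ 2 / 4 := by positivity
  have h1 : b / 2 ≤ Real.sqrt (a ^ 2 + b ^ 2 / 4) := by
    apply Real.le_sqrt_of_sq_le
    nlinarith [sq_nonneg a]
  rw [Real.sqrt_le_left (by positivity)]
  nlinarith [Real.sq_sqrt h0, Real.sqrt_nonneg (a ^ 2 + b ^ 2 / 4)]

/-- Infinitely many separated approximate midpoints force a gain. -/
lemma midpoint_gain (hM : PropM X) (x : X) (w : ℕ → X) (s L : ℝ) (hs : 0 < s)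
    (h1 : ∀ n, ‖x + w n‖ ≤ L) (h2 : ∀ n, ‖x - w n‖ ≤ L)
    (hsep : ∀ i j, i ≠ j → 2 * s ≤ ‖w i - w j‖) : Real.sqrt (‖x‖ ^ 2 + s ^ 2 / 4) ≤ L := by
  refine le_of_forall_pos_le_add fun δ hδ => ?_
  set ε : ℝ := min s (δ / 2) with hεdef
  have hε : 0 < ε := lt_min hs (by positivity)
  have hεs : ε ≤ s := min_le_left _ _
  have hεδ : ε ≤ δ / 2 := min_le_right _ _
  obtain ⟨S, hS, hfin, hMS⟩ := hM x ε hε
  have hwn : ∀ n, ‖w n‖ ≤ L := by
    intro n
    have h3 : w n = (1 / 2 : ℝ) • ((x + w n) - (x - w n)) := by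
      module
    rw [h3, norm_smul]
    have h4 := norm_sub_le (x + w n) (x - w n)
    have h5 : ‖(1 / 2 : ℝ)‖ = 1 / 2 := by norm_num
    rw [h5]
    linarith [h1 n, h2 n]
  obtain ⟨i, j, hij, y, hyS, hy⟩ := exists_pair_near S hS hfin w L hwn (2 * ε) (by positivity)
  have hy2S : (1 / 2 : ℝ) • y ∈ S := S.smul_mem _ hyS
  set y' : X := (1 / 2 : ℝ) • y with hy'
  have hd : ‖(1 / 2 : ℝ) • (w i - w j) - y'‖ ≤ ε := by
    rw [hy', ← smul_sub, norm_smul]
    have h5 : ‖(1 / 2 : ℝ)‖ = 1 / 2 := by norm_num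
    rw [h5]
    linarith
  have hyn : s - ε ≤ ‖y'‖ := by
    have h6 : s ≤ ‖(1 / 2 : ℝ) • (w i - w j)‖ := by
      rw [norm_smul]
      have h5 : ‖(1 / 2 : ℝ)‖ = 1 / 2 := by norm_num
      rw [h5]
      linarith [hsep i j hij]
    have h7 := norm_sub_norm_le ((1 / 2 : ℝ) • (w i - w j)) y'
    linarith
  have hp : ‖x + y'‖ ≤ L + ε := by
    have h8 : x + y' = (1 / 2 : ℝ) • ((x + w i) + (x - w j)) -
        ((1 / 2 : ℝ) • (w i - w j) - y') := by module
    rw [h8]
    refine (norm_sub_le _ _).trans ?_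
    rw [norm_smul]
    have h5 : ‖(1 / 2 : ℝ)‖ = 1 / 2 := by norm_num
    rw [h5]
    have h9 := norm_add_le (x + w i) (x - w j)
    linarith [h1 i, h2 j]
  have hq : ‖x - y'‖ ≤ L + ε := by
    have h8 : x - y' = (1 / 2 : ℝ) • ((x - w i) + (x + w j)) +
        ((1 / 2 : ℝ) • (w i - w j) - y') := by module
    rw [h8]
    refine (norm_add_le _ _).trans ?_
    rw [norm_smul]
    have h5 : ‖(1 / 2 : ℝ)‖ = 1 / 2 := by norm_num
    rw [h5]
    have h9 := norm_add_le (x - w i) (x + w j)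
    linarith [h2 i, h1 j]
  have hfinal := hMS y' hy2S
  have hmono : Real.sqrt (‖x‖ ^ 2 + (s - ε) ^ 2 / 4) ≤ Real.sqrt (‖x‖ ^ 2 + ‖y'‖ ^ 2 / 4) := by
    apply Real.sqrt_le_sqrt
    have : (s - ε) ^ 2 ≤ ‖y'‖ ^ 2 := pow_le_pow_left₀ (by linarith) hyn 2
    linarith
  have hlip := sqrt_add_le ‖x‖ (s - ε) ε (by linarith) hε.le
  rw [sub_add_cancel] at hlip
  linarith

/-- The inductive statement. -/
lemma main (hM : PropM X) : ∀ (k : ℕ) (f : DiamondVertex k → X) (s L : ℝ), 0 < s →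
    (∀ u v, s * (diamondDist k u v : ℝ) ≤ ‖f u - f v‖) →
    (∀ e, ‖f (diamondSrc k e) - f (diamondTgt k e)‖ ≤ L) →
    s ^ 2 * (1 + (k : ℝ) / 4) ≤ L ^ 2 := by
  intro k
  induction k with
  | zero =>
    intro f s L hs hlow hup
    obtain ⟨e0⟩ := nonempty_edge 0
    have h1 := hlow (diamondSrc 0 e0) (diamondTgt 0 e0)
    rw [dist_edge] at h1
    have h2 := hup e0
    have h3 : s ≤ L := by
      push_cast at h1
      linarith
    have := pow_le_pow_left₀ hs.le h3 2
    simpa using this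
  | succ k ih =>
    intro f s L hs hlow hup
    obtain ⟨e0⟩ := nonempty_edge (k + 1)
    have hsL : s ≤ L := by
      have h10 := hlow (diamondSrc (k + 1) e0) (diamondTgt (k + 1) e0)
      rw [dist_edge] at h10
      have h11 := hup e0
      push_cast at h10
      linarith
    have hL0 : 0 ≤ L := hs.le.trans hsL
    have hLs : 0 ≤ L ^ 2 - s ^ 2 / 4 := by nlinarith
    have hkey : ∀ e : DiamondEdge k,
        ‖f (vl (diamondSrc k e)) - f (vl (diamondTgt k e))‖ ≤
          2 * Real.sqrt (L ^ 2 - s ^ 2 / 4) := by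
      intro e
      set a : X := f (vl (diamondSrc k e))
      set b : X := f (vl (diamondTgt k e))
      have hg := midpoint_gain hM ((1 / 2 : ℝ) • (a - b))
        (fun n : ℕ => f (vm e n) - (1 / 2 : ℝ) • (a + b)) s L hs ?_ ?_ ?_
      · have h5 : ‖(1 / 2 : ℝ)‖ = 1 / 2 := by norm_num
        rw [norm_smul, h5, Real.sqrt_le_left hL0] at hg
        have h6 : ‖a - b‖ / 2 ≤ Real.sqrt (L ^ 2 - s ^ 2 / 4) := by
          apply Real.le_sqrt_of_sq_le
          nlinarith
        linarith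
      · intro n
        have h7 : (1 / 2 : ℝ) • (a - b) + (f (vm e n) - (1 / 2 : ℝ) • (a + b)) =
            f (vm e n) - b := by module
        simp only [h7]
        exact hup (ed e n true)
      · intro n
        have h7 : (1 / 2 : ℝ) • (a - b) - (f (vm e n) - (1 / 2 : ℝ) • (a + b)) =
            a - f (vm e n) := by module
        simp only [h7]
        exact hup (ed e n false)
      · intro i j hij
        have h8 : f (vm e i) - (1 / 2 : ℝ) • (a + b) -
            (f (vm e j) - (1 / 2 : ℝ) • (a + b)) =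
            f (vm e i) - f (vm e j) := by abel
        simp only [h8]
        refine le_trans ?_ (hlow (vm e i) (vm e j))
        have h9 : (2 : ℝ) ≤ (diamondDist (k + 1) (vm e i) (vm e j) : ℝ) := by
          exact_mod_cast two_le_dist_mid k e hij
        nlinarith
    have h := ih (fun u => f (vl u)) (2 * s) (2 * Real.sqrt (L ^ 2 - s ^ 2 / 4))
      (by positivity) ?_ hkey
    · rw [mul_pow, mul_pow, Real.sq_sqrt hLs] at h
      push_cast
      nlinarith
    · intro u v
      refine le_trans ?_ (hlow (vl u) (vl v))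
      have h13 : (2 : ℝ) * (diamondDist k u v : ℝ) ≤
          (diamondDist (k + 1) (vl u) (vl v) : ℝ) := by
        exact_mod_cast two_mul_dist_le k u v
      nlinarith

end Diamond

/-- Task A: distortion lower bound for the countably branching diamonds. -/
theorem diamond_distortion {X : Type} [nX : NormedAddCommGroup X] [sX : NormedSpace ℝ X]
    (cX : CompleteSpace X) (hM : PropM X) (k : ℕ) (f : DiamondVertex k → X) (D : ℝ)
    (h : (RealBanach.mk X nX sX cX).HasDistortionLE k f D) : 1 + (k : ℝ) / 4 ≤ D ^ 2 := by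
  obtain ⟨s, hs, hf⟩ := h
  have h1 := Diamond.main hM k f s (D * s) hs (fun u v => (hf u v).1) (fun e => by
    have h2 := (hf (diamondSrc k e) (diamondTgt k e)).2
    rw [Diamond.dist_edge] at h2
    simpa using h2)
  have h2 : s ^ 2 * (1 + (k : ℝ) / 4) ≤ s ^ 2 * D ^ 2 := by nlinarith
  exact le_of_mul_le_mul_left h2 (by positivity)

end Crest.Agent.R125
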