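import Crest.Agent.R125.Prop

/-!
Task C for result 125: property (M) and separability pass to `ℓ²`-sums.
-/

set_option autoImplicit false

namespace Crest.Agent.R125

open scoped ENNReal

section PropM

variable {X : ℕ → Type*} [∀ n, NormedAddCommGroup (X n)]

theorem lpsum_two_toReal_pos : 0 < (2 : ℝ≥0∞).toReal := by norm_num

theorem lp_norm_sq_hasSum (f : lp X 2) : HasSum (fun i => ‖f i‖ ^ 2) (‖f‖ ^ 2) := by
  have h := lp.hasSum_norm lpsum_two_toReal_pos f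
  simpa using h

/-- The pointwise combination `n ↦ 2 √(‖x n‖² + ‖y n‖²/4)` as an element of `ℓ²`. -/
noncomputable def comb (x y : lp X 2) : lp (fun _ : ℕ => ℝ) 2 :=
  ⟨fun n => 2 * Real.sqrt (‖x n‖ ^ 2 + ‖y n‖ ^ 2 / 4), by
    apply memℓp_gen
    have h1 := (lp_norm_sq_hasSum x).summable
    have h2 := (lp_norm_sq_hasSum y).summable
    have h3 : Summable fun n => 4 * ‖x n‖ ^ 2 + ‖y n‖ ^ 2 := (h1.mul_left 4).add h2
    refine h3.congr fun n => ?_
    have h0 : 0 ≤ ‖x n‖ ^ 2 + ‖y n‖ ^ 2 / 4 := by positivity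
    simp only [ENNReal.toReal_ofNat, Real.rpow_ofNat, Real.norm_eq_abs, sq_abs, mul_pow,
      Real.sq_sqrt h0]
    ring⟩

theorem comb_apply (x y : lp X 2) (n : ℕ) :
    comb x y n = 2 * Real.sqrt (‖x n‖ ^ 2 + ‖y n‖ ^ 2 / 4) := rfl

theorem norm_comb (x y : lp X 2) : ‖comb x y‖ = 2 * Real.sqrt (‖x‖ ^ 2 + ‖y‖ ^ 2 / 4) := by
  have h1 := lp_norm_sq_hasSum x
  have h2 := lp_norm_sq_hasSum y
  have h3 := lp_norm_sq_hasSum (comb x y)
  have h4 : HasSum (fun n => ‖comb x y n‖ ^ 2) (4 * ‖x‖ ^ 2 + ‖y‖ ^ 2) := by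
    have h := (h1.mul_left 4).add h2
    have heq : (fun n => ‖comb x y n‖ ^ 2) = fun n => 4 * ‖x n‖ ^ 2 + ‖y n‖ ^ 2 := by
      funext n
      have h0 : 0 ≤ ‖x n‖ ^ 2 + ‖y n‖ ^ 2 / 4 := by positivity
      rw [comb_apply, Real.norm_eq_abs, sq_abs, mul_pow, Real.sq_sqrt h0]
      ring
    rw [heq]
    exact h
  have h5 : ‖comb x y‖ ^ 2 = 4 * ‖x‖ ^ 2 + ‖y‖ ^ 2 := h3.unique h4
  have h0 : 0 ≤ ‖x‖ ^ 2 + ‖y‖ ^ 2 / 4 := by positivity
  have h6 : (2 * Real.sqrt (‖x‖ ^ 2 + ‖y‖ ^ 2 / 4)) ^ 2 = 4 * ‖x‖ ^ 2 + ‖y‖ ^ 2 := by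
    rw [mul_pow, Real.sq_sqrt h0]; ring
  exact (sq_eq_sq₀ (norm_nonneg _) (by positivity)).1 (h5.trans h6.symm)

/-- If the two-vector sums dominate up to a summable-small error, so do the global ones. -/
theorem comb_le (x y : lp X 2) (e : lp (fun _ : ℕ => ℝ) 2)
    (h : ∀ n, 2 * Real.sqrt (‖x n‖ ^ 2 + ‖y n‖ ^ 2 / 4) ≤ ‖x n + y n‖ + ‖x n - y n‖ + e n) :
    2 * Real.sqrt (‖x‖ ^ 2 + ‖y‖ ^ 2 / 4) ≤ ‖x + y‖ + ‖x - y‖ + ‖e‖ := by
  have h1 : ‖comb x y‖ ≤ ‖lp.toNorm (x + y) + lp.toNorm (x - y) + e‖ := by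
    apply lp.norm_mono (by norm_num)
    intro n
    have e1 : (lp.toNorm (x + y) + lp.toNorm (x - y) + e : lp (fun _ : ℕ => ℝ) 2) n
        = ‖x n + y n‖ + ‖x n - y n‖ + e n := by
      simp
    rw [e1, comb_apply, Real.norm_eq_abs, Real.norm_eq_abs, abs_of_nonneg (by positivity)]
    exact (h n).trans (le_abs_self _)
  rw [norm_comb] at h1
  refine h1.trans ?_
  refine (norm_add_le _ _).trans ?_
  gcongr
  refine (norm_add_le _ _).trans ?_
  rw [lp.norm_toNorm, lp.norm_toNorm]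

theorem sqrt_lip (a a' b : ℝ) (ha : 0 ≤ a) (ha' : 0 ≤ a') (hb : 0 ≤ b) (d : ℝ) (hd : 0 ≤ d)
    (h : a ≤ a' + d) : Real.sqrt (a ^ 2 + b) ≤ Real.sqrt (a' ^ 2 + b) + d := by
  have h0 : 0 ≤ a' ^ 2 + b := by positivity
  have h1 : a' ≤ Real.sqrt (a' ^ 2 + b) := by
    apply Real.le_sqrt_of_sq_le
    linarith
  rw [Real.sqrt_le_left (by positivity)]
  have h2 := Real.sq_sqrt h0
  nlinarith [mul_nonneg hd ha', mul_le_mul_of_nonneg_left h1 hd, mul_self_le_mul_self ha h]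

end PropM

section Main

variable (X : ℕ → Type*) [∀ n, NormedAddCommGroup (X n)] [∀ n, NormedSpace ℝ (X n)]

/-- The preimage of finitely many closed finite-codimensional subspaces in an `ℓ²`-sum. -/
theorem exists_subspace (N : ℕ) (S : ∀ n, Submodule ℝ (X n))
    (hS : ∀ n, IsClosed (S n : Set (X n))) (hfin : ∀ n, FiniteDimensional ℝ (X n ⧸ S n)) :
    ∃ T : Submodule ℝ (lp X 2), IsClosed (T : Set (lp X 2)) ∧
      FiniteDimensional ℝ (lp X 2 ⧸ T) ∧ ∀ y ∈ T, ∀ n < N, y n ∈ S n := by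
  let Φ : lp X 2 →ₗ[ℝ] (∀ n : Fin N, X n ⧸ S n) :=
    LinearMap.pi fun n => (S n).mkQ ∘ₗ (lp.evalCLM ℝ X 2 (n : ℕ)).toLinearMap
  have hmem : ∀ y : lp X 2, y ∈ LinearMap.ker Φ ↔ ∀ n : Fin N, y n ∈ S n := by
    intro y
    rw [LinearMap.mem_ker, funext_iff]
    refine forall_congr' fun n => ?_
    have : Φ y n = (S n).mkQ (y n) := rfl
    rw [this]
    simp
  refine ⟨LinearMap.ker Φ, ?_, ?_, ?_⟩
  · have : (LinearMap.ker Φ : Set (lp X 2)) =
        ⋂ n : Fin N, (lp.evalCLM ℝ X 2 (n : ℕ)) ⁻¹' (S n : Set (X n)) := by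
      ext y
      rw [SetLike.mem_coe, hmem]
      simp only [Set.mem_iInter, Set.mem_preimage, SetLike.mem_coe]
      rfl
    rw [this]
    exact isClosed_iInter fun n => (hS n).preimage (ContinuousLinearMap.continuous _)
  · have : FiniteDimensional ℝ (LinearMap.range Φ) := inferInstance
    exact (LinearMap.quotKerEquivRange Φ).symm.finiteDimensional
  · intro y hy n hn
    exact (hmem y).1 hy ⟨n, hn⟩

theorem propM_finite (h : ∀ n, PropM (X n)) (N : ℕ) (x : lp X 2) (hx : ∀ n, N ≤ n → x n = 0)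
    (ε : ℝ) (hε : 0 < ε) : ∃ S : Submodule ℝ (lp X 2), IsClosed (S : Set (lp X 2)) ∧
    FiniteDimensional ℝ (lp X 2 ⧸ S) ∧
    ∀ y ∈ S, 2 * Real.sqrt (‖x‖ ^ 2 + ‖y‖ ^ 2 / 4) - ε ≤ ‖x + y‖ + ‖x - y‖ := by
  have hη : 0 < ε / (N + 1) := by positivity
  choose S hS1 hS2 hS3 using fun n => h n (x n) (ε / (N + 1)) hη
  obtain ⟨T, hT1, hT2, hT3⟩ := exists_subspace X N S hS1 hS2
  refine ⟨T, hT1, hT2, fun y hy => ?_⟩
  let e : lp (fun _ : ℕ => ℝ) 2 := ∑ n ∈ Finset.range N, lp.single 2 n (ε / (N + 1))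
  have he : ∀ n, e n = if n < N then ε / (N + 1) else 0 := by
    intro n
    simp only [e, lp.coeFn_sum, Finset.sum_apply, lp.single_apply]
    simp [Pi.single_apply, Finset.sum_ite_eq]
  have hne : ‖e‖ ≤ ε := by
    refine (norm_sum_le _ _).trans ?_
    have : ∀ n ∈ Finset.range N, ‖(lp.single 2 n (ε / (N + 1)) : lp (fun _ : ℕ => ℝ) 2)‖
        ≤ ε / (N + 1) := by
      intro n _
      rw [lp.norm_single (by norm_num), Real.norm_eq_abs, abs_of_pos hη]
    refine (Finset.sum_le_sum this).trans ?_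
    rw [Finset.sum_const, Finset.card_range, nsmul_eq_mul, mul_div_assoc', div_le_iff₀ (by positivity)]
    nlinarith
  have key := comb_le x y e (fun n => ?_)
  · linarith
  · rw [he]
    split_ifs with hn
    · have := hS3 n (y n) (hT3 y hy n hn)
      linarith
    · rw [hx n (not_lt.1 hn)]
      have h1 : Real.sqrt (‖(0 : X n)‖ ^ 2 + ‖y n‖ ^ 2 / 4) = ‖y n‖ / 2 := by
        rw [norm_zero, show (0 : ℝ) ^ 2 + ‖y n‖ ^ 2 / 4 = (‖y n‖ / 2) ^ 2 by ring]
        exact Real.sqrt_sq (by positivity)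
      rw [h1]
      simp only [zero_add, zero_sub, norm_neg]
      linarith [norm_nonneg (y n)]

theorem propM_lp_two (h : ∀ n, PropM (X n)) : PropM (lp X 2) := by
  intro x ε hε
  have hs := lp.hasSum_single (by norm_num) x
  have hδ : 0 < ε / 8 := by positivity
  obtain ⟨s, hs⟩ := (Metric.tendsto_atTop.1 hs.tendsto_sum_nat) (ε / 8) hδ
  have hs := hs s le_rfl
  set x' : lp X 2 := ∑ i ∈ Finset.range s, lp.single 2 i (x i) with hx'
  have hd : ‖x - x'‖ ≤ ε / 8 := by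
    rw [dist_comm, dist_eq_norm] at hs
    exact hs.le
  have hx0 : ∀ n, s ≤ n → x' n = 0 := by
    intro n hn
    simp only [hx', lp.coeFn_sum, Finset.sum_apply, lp.single_apply]
    refine Finset.sum_eq_zero fun i hi => ?_
    rw [Finset.mem_range] at hi
    exact Pi.single_eq_of_ne (by omega) _
  obtain ⟨T, hT1, hT2, hT3⟩ := propM_finite X h s x' hx0 (ε / 2) (by positivity)
  refine ⟨T, hT1, hT2, fun y hy => ?_⟩
  have h1 := hT3 y hy
  have h2 : ‖x‖ ≤ ‖x'‖ + ε / 8 := by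
    have := norm_le_norm_add_norm_sub' x x'
    linarith
  have h3 := sqrt_lip ‖x‖ ‖x'‖ (‖y‖ ^ 2 / 4) (norm_nonneg _) (norm_nonneg _) (by positivity)
    (ε / 8) hδ.le h2
  have h4 : ‖x' + y‖ ≤ ‖x + y‖ + ε / 8 := by
    have : x' + y = (x + y) - (x - x') := by abel
    rw [this]
    exact (norm_sub_le _ _).trans (by linarith)
  have h5 : ‖x' - y‖ ≤ ‖x - y‖ + ε / 8 := by
    have : x' - y = (x - y) - (x - x') := by abel
    rw [this]
    exact (norm_sub_le _ _).trans (by linarith)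
  linarith

theorem separable_lp_two (h : ∀ n, TopologicalSpace.SeparableSpace (X n)) :
    TopologicalSpace.SeparableSpace (lp X 2) := by
  rw [← TopologicalSpace.isSeparable_univ_iff]
  have h1 : TopologicalSpace.IsSeparable
      (⋃ n : ℕ, Set.range (fun a : X n => (lp.single 2 n a : lp X 2))) := by
    refine TopologicalSpace.IsSeparable.iUnion fun n => ?_
    exact TopologicalSpace.isSeparable_range (lp.isometry_single n).continuous
  refine (h1.span (R := ℝ)).closure.mono ?_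
  intro f _
  have hs := lp.hasSum_single (by norm_num) f
  refine mem_closure_of_tendsto hs ?_
  filter_upwards with s
  refine Submodule.sum_mem _ fun i _ => Submodule.subset_span ?_
  exact Set.mem_iUnion.2 ⟨i, f i, rfl⟩

end Main

end Crest.Agent.R125
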