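import Mathlib
import Crest.Prelude.Def_AsymptoticConvexity
import Crest.Prelude.Def_DaugavetL1

/-!
Subspaces of `L¹(P)` whose unit ball is totally bounded in measure: lower bound `t/2` for the
averaged asymptotic midpoint modulus.
-/

set_option autoImplicit false

namespace Crest.Agent.R125.MeasureCompact

open Crest.AnalysisR Crest.AnalysisR.L1Subspace MeasureTheory Filter Topology

variable {Ω : Type} [MeasurableSpace Ω]

/-- Closeness in `measureDist` controls the measure of the set where the difference is large. -/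
lemma measure_lt_of_measureDist_lt (P : Measure Ω) [IsProbabilityMeasure P] (f g : Lp ℝ 1 P)
    {ε : ℝ} (hε : 0 < ε) (h : measureDist P f g < ε) :
    P {z | ε < abs ((f : Ω → ℝ) z - (g : Ω → ℝ) z)} ≤ ENNReal.ofReal ε := by
  unfold measureDist at h
  have hne : {a : ℝ | 0 < a ∧ P {z | a < abs ((f : Ω → ℝ) z - (g : Ω → ℝ) z)} <
      ENNReal.ofReal a}.Nonempty := by
    refine ⟨2, two_pos, lt_of_le_of_lt prob_le_one ?_⟩
    rw [← ENNReal.ofReal_one]
    exact (ENNReal.ofReal_lt_ofReal_iff two_pos).2 one_lt_two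
  obtain ⟨a, ⟨ha0, ha⟩, haε⟩ := exists_lt_of_csInf_lt hne h
  calc P {z | ε < abs ((f : Ω → ℝ) z - (g : Ω → ℝ) z)}
      ≤ P {z | a < abs ((f : Ω → ℝ) z - (g : Ω → ℝ) z)} := by
        apply measure_mono
        intro z hz
        exact lt_trans haε hz
    _ ≤ ENNReal.ofReal a := ha.le
    _ ≤ ENNReal.ofReal ε := ENNReal.ofReal_le_ofReal haε.le

/-- Subsequence extraction, first step: simultaneous closeness to net points. -/
lemma exists_subseq_near (P : Measure Ω) (E : Submodule ℝ (Lp ℝ 1 P))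
    (htb : UnitBallTotallyBoundedInMeasure P E) (f : ℕ → Lp ℝ 1 P) (hfE : ∀ n, f n ∈ E)
    (hf : ∀ n, ‖f n‖ ≤ 1) :
    ∃ (φ : ℕ → ℕ) (g : ℕ → Lp ℝ 1 P), StrictMono φ ∧
      ∀ k, ∀ j ≤ k, measureDist P (f (φ k)) (g j) < (1 / 2 : ℝ) ^ j := by
  classical
  have hnet : ∀ k : ℕ, ∃ g : Lp ℝ 1 P,
      ∀ᶠ n in (hyperfilter ℕ : Filter ℕ), measureDist P (f n) g < (1 / 2 : ℝ) ^ k := by
    intro k
    obtain ⟨s, -, hs⟩ := htb ((1 / 2 : ℝ) ^ k) (by positivity)
    have h1 : ∀ᶠ n in (hyperfilter ℕ : Filter ℕ), ∃ g ∈ (s : Set (Lp ℝ 1 P)),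
        measureDist P (f n) g < (1 / 2 : ℝ) ^ k :=
      Eventually.of_forall fun n => by simpa using hs (f n) (hfE n) (hf n)
    obtain ⟨g, -, hg⟩ := (Ultrafilter.eventually_exists_mem_iff s.finite_toSet).1 h1
    exact ⟨g, hg⟩
  choose g hg using hnet
  obtain ⟨φ, hφ, hφ2⟩ := extraction_forall_of_frequently
    (P := fun k n => ∀ j ≤ k, measureDist P (f n) (g j) < (1 / 2 : ℝ) ^ j) (by
      intro k
      have h1 : ∀ᶠ n in (hyperfilter ℕ : Filter ℕ), ∀ j ∈ Finset.range (k + 1),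
          measureDist P (f n) (g j) < (1 / 2 : ℝ) ^ j :=
        (Finset.eventually_all _).2 fun j _ => hg j
      have h2 : ∃ᶠ n in (hyperfilter ℕ : Filter ℕ), ∀ j ∈ Finset.range (k + 1),
          measureDist P (f n) (g j) < (1 / 2 : ℝ) ^ j := h1.frequently
      have h3 := h2.filter_mono Nat.hyperfilter_le_atTop
      refine h3.mono fun n hn j hj => hn j (Finset.mem_range.2 (Nat.lt_succ_of_le hj)))
  exact ⟨φ, g, hφ, hφ2⟩

/-- Subsequence extraction: an a.e. convergent subsequence with limit in the `L¹` ball. -/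
lemma exists_subseq_ae (P : Measure Ω) [IsProbabilityMeasure P] (E : Submodule ℝ (Lp ℝ 1 P))
    (htb : UnitBallTotallyBoundedInMeasure P E) (f : ℕ → Lp ℝ 1 P) (hfE : ∀ n, f n ∈ E)
    (hf : ∀ n, ‖f n‖ ≤ 1) :
    ∃ (φ : ℕ → ℕ) (G : Lp ℝ 1 P), StrictMono φ ∧
      ∀ᵐ z ∂P, Tendsto (fun k => (f (φ k) : Ω → ℝ) z) atTop (𝓝 ((G : Ω → ℝ) z)) := by
  obtain ⟨φ, g, hφ, hg⟩ := exists_subseq_near P E htb f hfE hf
  set B : ℕ → Set Ω := fun k => {z | 2 * (1 / 2 : ℝ) ^ k <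
    abs ((f (φ k) : Ω → ℝ) z - (f (φ (k + 1)) : Ω → ℝ) z)} with hB
  have hBm : ∀ k, P (B k) ≤ ENNReal.ofReal (2 * (1 / 2 : ℝ) ^ k) := by
    intro k
    have h1 := measure_lt_of_measureDist_lt P (f (φ k)) (g k) (by positivity) (hg k k le_rfl)
    have h2 := measure_lt_of_measureDist_lt P (f (φ (k + 1))) (g k) (by positivity)
      (hg (k + 1) k (Nat.le_succ k))
    have hsub : B k ⊆ {z | (1 / 2 : ℝ) ^ k < abs ((f (φ k) : Ω → ℝ) z - (g k : Ω → ℝ) z)} ∪
        {z | (1 / 2 : ℝ) ^ k < abs ((f (φ (k + 1)) : Ω → ℝ) z - (g k : Ω → ℝ) z)} := by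
      intro z hz
      by_contra hcon
      simp only [Set.mem_union, Set.mem_ofPred_eq, not_or, not_lt] at hcon
      have hz' : 2 * (1 / 2 : ℝ) ^ k <
        abs ((f (φ k) : Ω → ℝ) z - (f (φ (k + 1)) : Ω → ℝ) z) := hz
      have h3 : abs ((f (φ k) : Ω → ℝ) z - (f (φ (k + 1)) : Ω → ℝ) z) ≤
          abs ((f (φ k) : Ω → ℝ) z - (g k : Ω → ℝ) z) +
          abs ((f (φ (k + 1)) : Ω → ℝ) z - (g k : Ω → ℝ) z) := by
        have h4 := abs_sub ((f (φ k) : Ω → ℝ) z - (g k : Ω → ℝ) z)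
          ((f (φ (k + 1)) : Ω → ℝ) z - (g k : Ω → ℝ) z)
        have h5 : ((f (φ k) : Ω → ℝ) z - (g k : Ω → ℝ) z) -
          ((f (φ (k + 1)) : Ω → ℝ) z - (g k : Ω → ℝ) z) =
          (f (φ k) : Ω → ℝ) z - (f (φ (k + 1)) : Ω → ℝ) z := by ring
        rwa [h5] at h4
      linarith [hcon.1, hcon.2]
    calc P (B k) ≤ _ := measure_mono hsub
      _ ≤ _ := measure_union_le _ _
      _ ≤ ENNReal.ofReal ((1 / 2 : ℝ) ^ k) + ENNReal.ofReal ((1 / 2 : ℝ) ^ k) :=
          add_le_add h1 h2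
      _ = ENNReal.ofReal (2 * (1 / 2 : ℝ) ^ k) := by
          rw [← ENNReal.ofReal_add (by positivity) (by positivity)]
          congr 1; ring
  have hsum : (∑' k, P (B k)) ≠ ⊤ := by
    have h1 : (∑' k, P (B k)) ≤ ∑' k, ENNReal.ofReal (2 * (1 / 2 : ℝ) ^ k) :=
      ENNReal.tsum_le_tsum hBm
    have h2 : Summable (fun k : ℕ => 2 * (1 / 2 : ℝ) ^ k) :=
      (summable_geometric_of_lt_one (by norm_num) (by norm_num)).mul_left 2
    rw [← ENNReal.ofReal_tsum_of_nonneg (fun k => by positivity) h2] at h1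
    exact ne_top_of_le_ne_top ENNReal.ofReal_ne_top h1
  have hae := ae_eventually_notMem hsum
  have hlim : ∀ᵐ z ∂P, ∃ l : ℝ, Tendsto (fun k => (f (φ k) : Ω → ℝ) z) atTop (𝓝 l) := by
    filter_upwards [hae] with z hz
    rw [eventually_atTop] at hz
    obtain ⟨K, hK⟩ := hz
    have hcau : CauchySeq (fun k => (f (φ (k + K)) : Ω → ℝ) z) := by
      refine cauchySeq_of_le_geometric (1 / 2) (2 * (1 / 2 : ℝ) ^ K) (by norm_num) fun n => ?_
      have := hK (n + K) (Nat.le_add_left _ _)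
      simp only [hB, Set.mem_ofPred_eq, not_lt] at this
      rw [Real.dist_eq]
      have h2 : n + 1 + K = n + K + 1 := by ring
      rw [h2]
      refine this.trans (le_of_eq ?_)
      rw [pow_add]; ring
    obtain ⟨l, hl⟩ := cauchySeq_tendsto_of_complete hcau
    exact ⟨l, (tendsto_add_atTop_iff_nat K).1 hl⟩
  obtain ⟨G, hGm, hG⟩ := exists_stronglyMeasurable_limit_of_tendsto_ae
    (fun n => (Lp.stronglyMeasurable (f (φ n))).aestronglyMeasurable) hlim
  have hbd : eLpNorm G 1 P ≤ 1 := by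
    refine Lp.eLpNorm_le_of_ae_tendsto (u := atTop) (f := fun n => (f (φ n) : Ω → ℝ)) ?_
      (fun n => (Lp.stronglyMeasurable (f (φ n))).aestronglyMeasurable) hG
    refine Eventually.of_forall fun n => ?_
    have h1 := hf (φ n)
    rw [Lp.norm_def] at h1
    have h2 : eLpNorm (f (φ n)) 1 P ≠ ⊤ := Lp.eLpNorm_ne_top _
    rw [← ENNReal.ofReal_toReal h2]
    exact (ENNReal.ofReal_le_ofReal h1).trans_eq ENNReal.ofReal_one
  have hGLp : MemLp G 1 P := ⟨hGm.aestronglyMeasurable, lt_of_le_of_lt hbd ENNReal.one_lt_top⟩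
  refine ⟨φ, hGLp.toLp G, hφ, ?_⟩
  filter_upwards [hG, hGLp.coeFn_toLp] with z hz hz2
  rw [hz2]; exact hz

/-- Brezis–Lieb for `p = 1`. -/
lemma brezisLieb (P : Measure Ω) (w : ℕ → Lp ℝ 1 P)
    (hw : ∀ᵐ z ∂P, Tendsto (fun k => (w k : Ω → ℝ) z) atTop (𝓝 0)) (v : Lp ℝ 1 P) :
    Tendsto (fun k => ‖v + w k‖ - ‖w k‖) atTop (𝓝 ‖v‖) := by
  have h1 : ∀ k, ‖v + w k‖ - ‖w k‖ =
      ∫ z, (‖(v : Ω → ℝ) z + (w k : Ω → ℝ) z‖ - ‖(w k : Ω → ℝ) z‖) ∂P := by
    intro k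
    rw [L1.norm_eq_integral_norm, L1.norm_eq_integral_norm, ← integral_sub]
    · apply integral_congr_ae
      filter_upwards [Lp.coeFn_add v (w k)] with z hz
      rw [hz]; rfl
    · exact (L1.integrable_coeFn _).norm
    · exact (L1.integrable_coeFn _).norm
  simp_rw [h1]
  rw [L1.norm_eq_integral_norm]
  refine tendsto_integral_of_dominated_convergence (fun z => ‖(v : Ω → ℝ) z‖) ?_ ?_ ?_ ?_
  · intro k
    refine AEStronglyMeasurable.sub ?_ ?_
    · exact ((Lp.stronglyMeasurable v).add (Lp.stronglyMeasurable (w k))).norm.aestronglyMeasurable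
    · exact (Lp.stronglyMeasurable (w k)).norm.aestronglyMeasurable
  · exact (L1.integrable_coeFn v).norm
  · intro k
    refine Eventually.of_forall fun z => ?_
    rw [Real.norm_eq_abs, abs_le]
    have h2 := norm_add_le ((v : Ω → ℝ) z) ((w k : Ω → ℝ) z)
    have h3 := norm_sub_le ((v : Ω → ℝ) z + (w k : Ω → ℝ) z) ((v : Ω → ℝ) z)
    rw [add_sub_cancel_left] at h3
    constructor <;> linarith
  · filter_upwards [hw] with z hz
    have h2 : Tendsto (fun k => ‖(v : Ω → ℝ) z + (w k : Ω → ℝ) z‖ - ‖(w k : Ω → ℝ) z‖) atTop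
        (𝓝 (‖(v : Ω → ℝ) z + 0‖ - ‖(0 : ℝ)‖)) :=
      ((tendsto_const_nhds.add hz).norm).sub hz.norm
    simpa using h2

/-- Lower bound for the averaged modulus. -/
theorem midpoint_lower (P : Measure Ω) [IsProbabilityMeasure P] (E : Submodule ℝ (Lp ℝ 1 P))
    (htb : UnitBallTotallyBoundedInMeasure P E) (x : E) (hx : ‖x‖ = 1) {t η : ℝ} (ht : 0 < t)
    (hη : 0 < η) :
    ∃ S : Submodule ℝ E, IsClosed (S : Set E) ∧ FiniteDimensional ℝ (E ⧸ S) ∧
      ∀ y ∈ S, ‖y‖ = 1 → 1 + t / 2 - η ≤ (‖x + t • y‖ + ‖x - t • y‖) / 2 := by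
  classical
  by_contra hcon
  push Not at hcon
  -- build the sequence
  obtain ⟨f, hf1, hf2⟩ := exists_seq_of_forall_finset_exists
    (P := fun y : E => ‖y‖ = 1 ∧ (‖x + t • y‖ + ‖x - t • y‖) / 2 < 1 + t / 2 - η)
    (r := fun y y' : E => 1 ≤ ‖y - y'‖) (by
      intro s hs
      -- norming functionals
      have hg : ∀ y : E, ∃ g : E →L[ℝ] ℝ, ‖g‖ ≤ 1 ∧ g y = ‖y‖ := by
        intro y
        obtain ⟨g, hg1, hg2⟩ := exists_dual_vector'' ℝ y
        exact ⟨g, hg1, by simpa using hg2⟩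
      choose g hg1 hg2 using hg
      let T : E →L[ℝ] (s → ℝ) := ContinuousLinearMap.pi fun y => g y
      set S : Submodule ℝ E := LinearMap.ker T.toLinearMap with hS
      have hScl : IsClosed (S : Set E) := T.isClosed_ker
      have hSfin : FiniteDimensional ℝ (E ⧸ S) :=
        FiniteDimensional.of_injective (S.liftQ T.toLinearMap le_rfl) (by
          rw [← LinearMap.ker_eq_bot]
          exact Submodule.ker_liftQ_eq_bot _ _ _ le_rfl)
      obtain ⟨y, hyS, hy1, hy2⟩ := hcon S hScl hSfin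
      refine ⟨y, ⟨hy1, hy2⟩, fun y' hy' => ?_⟩
      have h1 : g y' y = 0 := by
        have : T y = 0 := hyS
        exact congrFun this ⟨y', hy'⟩
      have h2 : g y' (y' - y) = 1 := by
        rw [map_sub, h1, hg2, (hs y' hy').1, sub_zero]
      calc (1 : ℝ) = g y' (y' - y) := h2.symm
        _ ≤ ‖g y' (y' - y)‖ := Real.le_norm_self _
        _ ≤ ‖g y'‖ * ‖y' - y‖ := (g y').le_opNorm _
        _ ≤ 1 * ‖y' - y‖ := by gcongr; exact hg1 y'
        _ = ‖y' - y‖ := one_mul _)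
  obtain ⟨φ, G, hφ, hG⟩ := exists_subseq_ae P E htb (fun n => (f n : Lp ℝ 1 P))
    (fun n => (f n).2) (fun n => (hf1 n).1.le)
  set u : ℕ → Lp ℝ 1 P := fun k => (f (φ k) : Lp ℝ 1 P) with hu
  have hu1 : ∀ k, ‖u k‖ = 1 := fun k => (hf1 (φ k)).1
  have hu2 : ∀ m k, m < k → 1 ≤ ‖u m - u k‖ := fun m k hmk => hf2 _ _ (hφ hmk)
  have hu3 : ∀ k, (‖(x : Lp ℝ 1 P) + t • u k‖ + ‖(x : Lp ℝ 1 P) - t • u k‖) / 2 <
      1 + t / 2 - η := fun k => (hf1 (φ k)).2
  set w : ℕ → Lp ℝ 1 P := fun k => u k - G with hw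
  have hw0 : ∀ᵐ z ∂P, Tendsto (fun k => (w k : Ω → ℝ) z) atTop (𝓝 0) := by
    have h1 : ∀ᵐ z ∂P, ∀ k, (w k : Ω → ℝ) z = (u k : Ω → ℝ) z - (G : Ω → ℝ) z := by
      rw [ae_all_iff]
      intro k
      filter_upwards [Lp.coeFn_sub (u k) G] with z hz
      rw [hw]; simpa using hz
    filter_upwards [h1, hG] with z hz hz2
    simp_rw [hz]
    have := hz2.sub_const ((G : Ω → ℝ) z)
    simpa using this
  have hwsc : ∀ c : ℝ, ∀ᵐ z ∂P, Tendsto (fun k => ((c • w k : Lp ℝ 1 P) : Ω → ℝ) z) atTop (𝓝 0) := by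
    intro c
    have h1 : ∀ᵐ z ∂P, ∀ k, ((c • w k : Lp ℝ 1 P) : Ω → ℝ) z = c * (w k : Ω → ℝ) z := by
      rw [ae_all_iff]
      intro k
      filter_upwards [Lp.coeFn_smul c (w k)] with z hz
      rw [hz]; rfl
    filter_upwards [h1, hw0] with z hz hz2
    simp_rw [hz]
    have := hz2.const_mul c
    simpa using this
  -- norms of `w`
  have hwn : Tendsto (fun k => ‖w k‖) atTop (𝓝 (1 - ‖G‖)) := by
    have h1 := brezisLieb P w hw0 G
    have h2 : ∀ k, ‖G + w k‖ = 1 := fun k => by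
      rw [hw]; simp only [add_sub_cancel]; exact hu1 k
    simp_rw [h2] at h1
    have h3 : Tendsto (fun k => 1 - (1 - ‖w k‖)) atTop (𝓝 (1 - ‖G‖)) := h1.const_sub 1
    simpa using h3
  -- separation
  have hsep : ∀ m, ‖G‖ ≤ ‖w m‖ := by
    intro m
    have h1 := brezisLieb P (fun k => (-1 : ℝ) • w k) (hwsc (-1)) (w m)
    have h2 : Tendsto (fun k => ‖w m + (-1 : ℝ) • w k‖) atTop (𝓝 (‖w m‖ + (1 - ‖G‖))) := by
      have h3 := h1.add hwn
      refine h3.congr fun k => ?_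
      simp
    have h4 : ∀ᶠ k in atTop, 1 ≤ ‖w m + (-1 : ℝ) • w k‖ := by
      filter_upwards [eventually_gt_atTop m] with k hk
      have : w m + (-1 : ℝ) • w k = u m - u k := by
        rw [hw]; simp only [neg_smul, one_smul]; abel
      rw [this]; exact hu2 m k hk
    have h5 := ge_of_tendsto h2 h4
    linarith
  have hG2 : ‖G‖ ≤ 1 / 2 := by
    have := ge_of_tendsto hwn (Eventually.of_forall hsep)
    linarith
  -- the averaged quantity
  have hA : Tendsto (fun k => ‖(x : Lp ℝ 1 P) + t • u k‖) atTop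
      (𝓝 (‖(x : Lp ℝ 1 P) + t • G‖ + t * (1 - ‖G‖))) := by
    have h1 := brezisLieb P (fun k => t • w k) (hwsc t) ((x : Lp ℝ 1 P) + t • G)
    have h3 := h1.add (hwn.const_mul t)
    refine h3.congr fun k => ?_
    have h4 : (x : Lp ℝ 1 P) + t • G + t • w k = x + t • u k := by
      rw [hw]; simp only [smul_sub]; abel
    rw [h4, norm_smul, Real.norm_of_nonneg ht.le]; ring
  have hA' : Tendsto (fun k => ‖(x : Lp ℝ 1 P) - t • u k‖) atTop
      (𝓝 (‖(x : Lp ℝ 1 P) - t • G‖ + t * (1 - ‖G‖))) := by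
    have h1 := brezisLieb P (fun k => (-t) • w k) (hwsc (-t)) ((x : Lp ℝ 1 P) - t • G)
    have h3 := h1.add (hwn.const_mul t)
    refine h3.congr fun k => ?_
    have h4 : (x : Lp ℝ 1 P) - t • G + (-t) • w k = x - t • u k := by
      rw [hw]; simp only [neg_smul, smul_sub]; abel
    rw [h4, norm_smul, norm_neg, Real.norm_of_nonneg ht.le]; ring
  have hB := (hA.add hA').div_const 2
  have h5 := le_of_tendsto hB (Eventually.of_forall fun k => (hu3 k).le)
  have h6 : 2 * ‖(x : Lp ℝ 1 P)‖ ≤ ‖(x : Lp ℝ 1 P) + t • G‖ + ‖(x : Lp ℝ 1 P) - t • G‖ := by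
    have h7 : (2 : ℝ) • (x : Lp ℝ 1 P) = ((x : Lp ℝ 1 P) + t • G) + (x - t • G) := by
      rw [two_smul]; abel
    have h8 := norm_add_le ((x : Lp ℝ 1 P) + t • G) (x - t • G)
    rw [← h7, norm_smul] at h8
    simpa using h8
  have h9 : ‖(x : Lp ℝ 1 P)‖ = 1 := hx
  rw [h9] at h6
  nlinarith

end Crest.Agent.R125.MeasureCompact
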