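import Mathlib
import Crest.Prelude.Def_AsymptoticConvexity

/-!
General tools for rid 125 (asymptotic uniform convexity):
* `not_isAUC_of_steps` : a bounded family with steps bounded below close to every cofinite subspace
  excludes AUC renormings;
* `exists_mem_near_of_weaklyNull` : weakly null sequences get close to cofinite subspaces;
* `weaklyNull_of_l2upper` : upper l2 estimates give weak nullity.
-/

set_option autoImplicit false

namespace Crest.Agent.R125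

open Filter Topology Crest.AnalysisR

section unbundled

variable {X : Type*} [NormedAddCommGroup X] [NormedSpace ℝ X]

/-- An upper `ℓ₂` estimate makes a sequence weakly null. -/
theorem weaklyNull_of_l2upper (e : ℕ → X) (K : ℝ)
    (h : ∀ (A : Finset ℕ) (c : ℕ → ℝ), ‖∑ n ∈ A, c n • e n‖ ≤ K * Real.sqrt (∑ n ∈ A, c n ^ 2))
    (φ : X →L[ℝ] ℝ) : Tendsto (fun n => φ (e n)) atTop (𝓝 0) := by
  have hK : ∀ A : Finset ℕ, ∑ n ∈ A, (φ (e n)) ^ 2 ≤ (‖φ‖ * K) ^ 2 := by
    intro A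
    set S := ∑ n ∈ A, (φ (e n)) ^ 2 with hS
    have hS0 : 0 ≤ S := Finset.sum_nonneg fun _ _ => sq_nonneg _
    have h1 : S = φ (∑ n ∈ A, φ (e n) • e n) := by
      rw [map_sum, hS]
      refine Finset.sum_congr rfl fun n _ => ?_
      rw [map_smul, smul_eq_mul, sq]
    have h2 : S ≤ ‖φ‖ * (K * Real.sqrt S) := by
      calc S = φ (∑ n ∈ A, φ (e n) • e n) := h1
        _ ≤ ‖φ (∑ n ∈ A, φ (e n) • e n)‖ := le_abs_self _
        _ ≤ ‖φ‖ * ‖∑ n ∈ A, φ (e n) • e n‖ := φ.le_opNorm _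
        _ ≤ ‖φ‖ * (K * Real.sqrt S) := by
          refine mul_le_mul_of_nonneg_left ?_ (norm_nonneg _)
          exact h A (fun n => φ (e n))
    have h3 : Real.sqrt S * Real.sqrt S ≤ (‖φ‖ * K) * Real.sqrt S := by
      rw [Real.mul_self_sqrt hS0]; linarith
    by_cases hz : Real.sqrt S = 0
    · have : S = 0 := by
        have := Real.sqrt_eq_zero hS0 |>.1 hz
        exact this
      rw [this]; positivity
    · have hpos : 0 < Real.sqrt S := lt_of_le_of_ne (Real.sqrt_nonneg _) (Ne.symm hz)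
      have h4 : Real.sqrt S ≤ ‖φ‖ * K := le_of_mul_le_mul_right h3 hpos
      calc S = Real.sqrt S ^ 2 := (Real.sq_sqrt hS0).symm
        _ ≤ (‖φ‖ * K) ^ 2 := by
          exact pow_le_pow_left₀ (Real.sqrt_nonneg _) h4 2
  have hsum : Summable (fun n => (φ (e n)) ^ 2) :=
    summable_of_sum_le (fun n => sq_nonneg _) hK
  have h0 := hsum.tendsto_atTop_zero
  have h1 : Tendsto (fun n => Real.sqrt ((φ (e n)) ^ 2)) atTop (𝓝 (Real.sqrt 0)) :=
    (Real.continuous_sqrt.tendsto 0).comp h0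
  rw [Real.sqrt_zero] at h1
  simp only [Real.sqrt_sq_eq_abs] at h1
  exact (tendsto_zero_iff_abs_tendsto_zero _).2 h1

/-- A weakly null sequence is eventually close to any closed finite-codimensional subspace. -/
theorem eventually_near_of_weaklyNull (S : Submodule ℝ X) (hS : IsClosed (S : Set X))
    (hfin : FiniteDimensional ℝ (X ⧸ S)) (e : ℕ → X)
    (he : ∀ φ : X →L[ℝ] ℝ, Tendsto (fun n => φ (e n)) atTop (𝓝 0)) (ε : ℝ) (hε : 0 < ε) :
    ∀ᶠ n in atTop, ∃ y ∈ S, ‖e n - y‖ < ε := by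
  have : IsClosed (S : Set X) := hS
  let b := Module.finBasis ℝ (X ⧸ S)
  have hcoord : ∀ i, Tendsto (fun n => b.repr (S.mkQ (e n)) i) atTop (𝓝 0) := by
    intro i
    have hq : Continuous (S.mkQ) := by
      exact S.mkQL.continuous
    let φ : X →L[ℝ] ℝ := ⟨(b.coord i).comp S.mkQ, by
      have : Continuous (b.coord i) := LinearMap.continuous_of_finiteDimensional _
      exact this.comp hq⟩
    exact he φ
  have hto : Tendsto (fun n => S.mkQ (e n)) atTop (𝓝 0) := by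
    have h1 : (fun n => S.mkQ (e n)) = fun n => ∑ i, b.repr (S.mkQ (e n)) i • b i := by
      funext n
      exact (b.sum_repr _).symm
    rw [h1]
    have h2 : (0 : X ⧸ S) = ∑ i, (0 : ℝ) • b i := by simp
    rw [h2]
    refine tendsto_finsetSum _ fun i _ => ?_
    exact (hcoord i).smul_const (b i)
  have hnorm : Tendsto (fun n => ‖S.mkQ (e n)‖) atTop (𝓝 0) := by
    simpa using hto.norm
  filter_upwards [hnorm.eventually (gt_mem_nhds hε)] with n hn
  have hn' : ‖(Submodule.Quotient.mk (e n) : X ⧸ S)‖ < ε := hn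
  obtain ⟨m, hm, hmn⟩ := (QuotientAddGroup.norm_lt_iff).1 hn'
  refine ⟨e n - m, ?_, ?_⟩
  · have : (Submodule.Quotient.mk m : X ⧸ S) = Submodule.Quotient.mk (e n) := hm
    have := (Submodule.Quotient.eq S).1 this
    simpa using S.neg_mem this
  · simpa using hmn

/-- Core estimate: `N`-norm growth along AUC steps. -/
theorem growth_step (N : X → ℝ) (hadd : ∀ x y, N (x + y) ≤ N x + N y)
    (hsmul : ∀ (r : ℝ) (x : X), N (r • x) = |r| * N x)
    {x y : X} {t c : ℝ} (hx : 0 < N x) (hy : 0 < N y) (ht : 0 < t) (hts : t * N x ≤ N y)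
    (hc : 0 ≤ c)
    (h : c ≤ N ((N x)⁻¹ • x + t • ((N y)⁻¹ • y)) - 1) :
    (1 + c) * N x ≤ N (x + y) := by
  set s := N y / N x with hs
  have hst : t ≤ s := by rw [hs, le_div_iff₀ hx]; exact hts
  have hs0 : 0 < s := lt_of_lt_of_le ht hst
  obtain ⟨x', hx'⟩ : ∃ x', x' = (N x)⁻¹ • x := ⟨_, rfl⟩
  obtain ⟨y', hy'⟩ : ∃ y', y' = (N y)⁻¹ • y := ⟨_, rfl⟩
  rw [← hx', ← hy'] at h
  have hNx' : N x' = 1 := by
    rw [hx', hsmul, abs_of_pos (inv_pos.2 hx), inv_mul_cancel₀ hx.ne']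
  have hkey : x' + t • y' = (1 - t / s) • x' + (t / s) • (x' + s • y') := by
    rw [smul_add, smul_smul (t / s) s y', div_mul_cancel₀ t hs0.ne', sub_smul, one_smul]
    abel
  have hts1 : t / s ≤ 1 := (div_le_one hs0).2 hst
  have hts0 : 0 < t / s := div_pos ht hs0
  have h1 : N (x' + t • y') ≤ (1 - t / s) * 1 + (t / s) * N (x' + s • y') := by
    calc N (x' + t • y') = N ((1 - t / s) • x' + (t / s) • (x' + s • y')) := by rw [← hkey]
      _ ≤ N ((1 - t / s) • x') + N ((t / s) • (x' + s • y')) := hadd _ _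
      _ = (1 - t / s) * 1 + (t / s) * N (x' + s • y') := by
        rw [hsmul, hsmul, hNx', abs_of_nonneg (by linarith), abs_of_pos hts0]
  have h2 : 1 + c ≤ N (x' + s • y') := by
    have h3 : (t / s) * (1 + c) ≤ (t / s) * N (x' + s • y') := by
      have : t / s * c ≤ c := by nlinarith
      nlinarith
    exact le_of_mul_le_mul_left h3 hts0
  have h4 : N x * N (x' + s • y') = N (x + y) := by
    have : x + y = (N x) • (x' + s • y') := by
      rw [smul_add, hx', hy', smul_smul, smul_smul, smul_smul, hs, mul_inv_cancel₀ hx.ne', one_smul]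
      have : N x * (N y / N x) * (N y)⁻¹ = 1 := by
        field_simp
      rw [this, one_smul]
    rw [this, hsmul, abs_of_pos hx]
  rw [← h4]
  nlinarith

/-- Abstract exclusion of AUC. -/
theorem false_of_steps (N : X → ℝ) (hadd : ∀ x y, N (x + y) ≤ N x + N y)
    (hsmul : ∀ (r : ℝ) (x : X), N (r • x) = |r| * N x)
    (a b : ℝ) (ha : 0 < a) (hab : ∀ x : X, a * ‖x‖ ≤ N x ∧ N x ≤ b * ‖x‖)
    (hAUC : ∀ t : ℝ, 0 < t → ∃ c : ℝ, 0 < c ∧ ∀ x : X, N x = 1 → ∃ F : Set X,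
      (∃ S : Submodule ℝ X, (S : Set X) = F ∧ IsClosed F ∧ FiniteDimensional ℝ (X ⧸ S)) ∧
        ∀ y ∈ F, N y = 1 → c ≤ N (x + t • y) - 1)
    (P : Set X) (C c₀ : ℝ) (hc₀ : 0 < c₀) (hC : ∀ x ∈ P, ‖x‖ ≤ C)
    (hne : ∃ x ∈ P, x ≠ 0)
    (hstep : ∀ x ∈ P, ∀ S : Submodule ℝ X, IsClosed (S : Set X) → FiniteDimensional ℝ (X ⧸ S) →
      ∀ ε : ℝ, 0 < ε → ∃ x' ∈ P, c₀ ≤ ‖x' - x‖ ∧ ∃ y ∈ S, ‖(x' - x) - y‖ < ε) : False := by
  obtain ⟨x₀, hx₀, hx₀ne⟩ := hne
  have hC0 : 0 < C := lt_of_lt_of_le (norm_pos_iff.2 hx₀ne) (hC _ hx₀)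
  have hb : 0 < b := by
    have h1 := hab x₀
    have h2 := norm_pos_iff.2 hx₀ne
    by_contra hb
    push Not at hb
    nlinarith [mul_pos ha h2]
  set t := a * (c₀ / 2) / (b * C) with ht
  have ht0 : 0 < t := by positivity
  obtain ⟨c, hc, hcF⟩ := hAUC t ht0
  set K := sSup (N '' P) with hK
  have hbdd : BddAbove (N '' P) := by
    refine ⟨b * C, ?_⟩
    rintro _ ⟨x, hx, rfl⟩
    exact (hab x).2.trans (mul_le_mul_of_nonneg_left (hC x hx) hb.le)
  have hNx₀ : 0 < N x₀ := lt_of_lt_of_le (mul_pos ha (norm_pos_iff.2 hx₀ne)) (hab x₀).1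
  have hK0 : 0 < K := lt_of_lt_of_le hNx₀ (le_csSup hbdd ⟨x₀, hx₀, rfl⟩)
  have hKlt : K / (1 + c / 2) < K := by
    rw [div_lt_iff₀ (by positivity)]
    nlinarith
  obtain ⟨_, ⟨x, hx, rfl⟩, hxK⟩ := exists_lt_of_lt_csSup (s := N '' P) ⟨N x₀, x₀, hx₀, rfl⟩ hKlt
  have hNx : 0 < N x := lt_trans (by positivity) hxK
  have hN1 : N ((N x)⁻¹ • x) = 1 := by
    rw [hsmul, abs_of_pos (inv_pos.2 hNx), inv_mul_cancel₀ hNx.ne']
  obtain ⟨F, ⟨S, hSF, hFcl, hfin⟩, hF⟩ := hcF _ hN1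
  have hScl : IsClosed (S : Set X) := by rw [hSF]; exact hFcl
  set ε := min (c₀ / 2) (c / 2 * N x / b) with hε
  have hε0 : 0 < ε := lt_min (by positivity) (by positivity)
  obtain ⟨x', hx', hx'c, y, hyS, hy⟩ := hstep x hx S hScl hfin ε hε0
  have hyc : c₀ / 2 ≤ ‖y‖ := by
    have h1 : ‖x' - x‖ ≤ ‖x' - x - y‖ + ‖y‖ := by
      simpa using norm_add_le (x' - x - y) y
    have h2 : ε ≤ c₀ / 2 := min_le_left _ _
    linarith
  have hNy : a * (c₀ / 2) ≤ N y := (mul_le_mul_of_nonneg_left hyc ha.le).trans (hab y).1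
  have hNy0 : 0 < N y := lt_of_lt_of_le (by positivity) hNy
  have hNxC : N x ≤ b * C := (hab x).2.trans (mul_le_mul_of_nonneg_left (hC x hx) hb.le)
  have hyF : (N y)⁻¹ • y ∈ F := by
    rw [← hSF]; exact S.smul_mem _ hyS
  have hN1y : N ((N y)⁻¹ • y) = 1 := by
    rw [hsmul, abs_of_pos (inv_pos.2 hNy0), inv_mul_cancel₀ hNy0.ne']
  have hg := growth_step N hadd hsmul hNx hNy0 ht0 (by
    have : t * N x ≤ t * (b * C) := mul_le_mul_of_nonneg_left hNxC ht0.le
    have h3 : t * (b * C) = a * (c₀ / 2) := by rw [ht]; field_simp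
    linarith) hc.le (hF _ hyF hN1y)
  have h5 : N (x + y) ≤ N x' + b * ε := by
    have e1 : x + y = x' + (-1 : ℝ) • (x' - x - y) := by
      rw [neg_one_smul]; abel
    calc N (x + y) = N (x' + (-1 : ℝ) • (x' - x - y)) := by rw [← e1]
      _ ≤ N x' + N ((-1 : ℝ) • (x' - x - y)) := hadd _ _
      _ = N x' + N (x' - x - y) := by rw [hsmul]; simp
      _ ≤ N x' + b * ‖x' - x - y‖ := by gcongr; exact (hab _).2
      _ ≤ N x' + b * ε := by gcongr
  have h6 : b * ε ≤ c / 2 * N x := by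
    have : ε ≤ c / 2 * N x / b := min_le_right _ _
    calc b * ε ≤ b * (c / 2 * N x / b) := mul_le_mul_of_nonneg_left this hb.le
      _ = c / 2 * N x := by field_simp
  have h7 : (1 + c / 2) * N x ≤ N x' := by nlinarith
  have h8 : N x' ≤ K := le_csSup hbdd ⟨x', hx', rfl⟩
  have h9 : K < (1 + c / 2) * N x := by
    rw [div_lt_iff₀ (by positivity)] at hxK
    linarith
  linarith

end unbundled

/-- Bundled version for `RealBanach`: a bounded set `P` with a non-zero element such that from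
each element of `P` one can step, by a vector of norm at least `c₀` and arbitrarily close to any
prescribed closed finite-codimensional subspace, to another element of `P`, excludes any equivalent
AUC norm. -/
theorem not_isAUC_of_steps (E : RealBanach) (N : E.X → ℝ) (hN : E.IsEquivNorm N)
    (h : letI := E.normed; letI := E.space
      ∃ (P : Set E.X) (C c₀ : ℝ), 0 < c₀ ∧ (∀ x ∈ P, ‖x‖ ≤ C) ∧ (∃ x ∈ P, x ≠ 0) ∧
        ∀ x ∈ P, ∀ S : Submodule ℝ E.X, IsClosed (S : Set E.X) → FiniteDimensional ℝ (E.X ⧸ S) →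
          ∀ ε : ℝ, 0 < ε → ∃ x' ∈ P, c₀ ≤ ‖x' - x‖ ∧ ∃ y ∈ S, ‖(x' - x) - y‖ < ε) :
    ¬ E.IsAUC N := by
  let _ := E.normed
  let _ := E.space
  intro hAUC
  obtain ⟨P, C, c₀, hc₀, hC, hne, hstep⟩ := h
  obtain ⟨hadd, hsmul, a, b, ha, hab⟩ := hN
  exact false_of_steps N hadd hsmul a b ha hab hAUC P C c₀ hc₀ hC hne hstep

end Crest.Agent.R125
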