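import Mathlib
import Crest.Agent.R125.Depth
import Crest.Agent.R125.LpSum
import Crest.Agent.R125.Diamond

/-!
The reflexive space of S0166: the `ℓ²`-sum of the finite-depth pieces (result 125).
-/

set_option autoImplicit false

namespace Crest.Agent.R125.Space

open Crest.AnalysisR Crest.AnalysisR.TreePotential Crest.Agent.R125 Crest.Agent.R125.Pot
  Crest.Agent.R125.Depth

/-- the pieces -/
abbrev P (n : ℕ) : Type := Y n

/-- the space -/
abbrev Z : Type := lp P 2

/-- path vector in the `n`-th piece -/
noncomputable def pv (n : ℕ) (s : List ℕ) (hs : s.length ≤ n) : Z :=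
  lp.single 2 n (⟨pathVec gm s, pathVec_mem_Y hs⟩ : P n)

/-- coordinate vector in the `n`-th piece -/
noncomputable def cv (n : ℕ) (s : List ℕ) (hs : s.length ≤ n) : P n :=
  ⟨coordVector gm s, coordVector_mem_Y hs⟩

theorem not_isAUC (cZ : CompleteSpace Z) (N : Z → ℝ)
    (hN : (RealBanach.mk Z inferInstance inferInstance cZ).IsEquivNorm N) :
    ¬ (RealBanach.mk Z inferInstance inferInstance cZ).IsAUC N := by
  refine not_isAUC_of_tree (X := Z) cZ
    (fun j => {z | ∃ (n : ℕ) (s : List ℕ) (hs : s.length + j ≤ n),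
      z = pv n s (by omega)}) 1 1 1 one_pos one_pos ?_ ?_ ?_ N hN
  · rintro j _ ⟨n, s, hs, rfl⟩
    rw [pv, lp.norm_single (by norm_num)]
    exact norm_pathVec_le gm s
  · intro j
    refine ⟨pv j [] (by simp), ⟨j, [], by simp, rfl⟩, ?_⟩
    rw [pv, lp.norm_single (by norm_num)]
    exact one_le_norm_pathVec (m := gm) (s := []) (by simp)
  · rintro j _ ⟨n, s, hs, rfl⟩ S hS hfd η hη
    have hlen : ∀ a : ℕ, (a :: s).length ≤ n := by
      intro a
      simp only [List.length_cons]
      omega
    obtain ⟨n₀, hn₀⟩ := eventually_near_of_l2_upper (X := Z)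
      (fun a => (lp.single 2 n (cv n (a :: s) (hlen a)) : Z)) 1 (by
        intro A ε hε
        have h1 := l2_upper_children gm s A ε hε
        have h2 : (∑ a ∈ A, ε a • (lp.single 2 n (cv n (a :: s) (hlen a)) : Z)) =
            lp.single 2 n (∑ a ∈ A, ε a • cv n (a :: s) (hlen a)) := by
          have h3 := map_sum (lp.singleContinuousLinearMap ℝ P 2 n)
            (fun a => ε a • cv n (a :: s) (hlen a)) A
          simp only [map_smul, lp.singleContinuousLinearMap_apply] at h3
          exact h3.symm
        rw [h2, lp.norm_single (by norm_num)]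
        have h4 : ((∑ a ∈ A, ε a • cv n (a :: s) (hlen a) : P n) : Amb gm) =
            ∑ a ∈ A, ε a • coordVector gm (a :: s) := by
          push_cast
          rfl
        show ‖((∑ a ∈ A, ε a • cv n (a :: s) (hlen a) : P n) : Amb gm)‖ ≤ _
        rw [h4]; exact h1) S hS hfd η hη
    obtain ⟨y, hy, hle⟩ := hn₀ n₀ le_rfl
    have hdiff : pv n (n₀ :: s) (hlen n₀) - pv n s (by omega) =
        lp.single 2 n (cv n (n₀ :: s) (hlen n₀)) := by
      rw [pv, pv, ← lp.single_sub]
      congr 1
      apply Subtype.ext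
      show pathVec gm (n₀ :: s) - pathVec gm s = coordVector gm (n₀ :: s)
      rw [pathVec]; abel
    refine ⟨pv n (n₀ :: s) (hlen n₀), ⟨n, n₀ :: s, by simp only [List.length_cons]; omega, rfl⟩,
      y, hy, ?_, ?_⟩
    · rw [hdiff, lp.norm_single (by norm_num)]
      exact one_le_norm_coord (m := gm) (by simp)
    · rw [hdiff]; exact hle

theorem propM_Z : PropM Z := propM_lp_two P propM_Y

theorem reflexive_Z : Reflexive Z := reflexive_lp_two P reflexive_Y

theorem separable_Z : TopologicalSpace.SeparableSpace Z := separable_lp_two P separable_Y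

end Crest.Agent.R125.Space
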