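import Crest.Agent.R125.Prop

/-!
Blueprint statements for S0166 (each to be proved in its own file, see tasks).
-/

set_option autoImplicit false

namespace Crest.Agent.R125.Blueprint

open Crest.AnalysisR Crest.Agent.R125

/-- Task A (module Crest.Agent.R125.Diamond). -/
theorem diamond_distortion {X : Type} [nX : NormedAddCommGroup X] [sX : NormedSpace ℝ X]
    (cX : CompleteSpace X) (hM : PropM X) (k : ℕ) (f : DiamondVertex k → X) (D : ℝ)
    (h : (RealBanach.mk X nX sX cX).HasDistortionLE k f D) : 1 + (k : ℝ) / 4 ≤ D ^ 2 := by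
  sorry

/-- Task B1 (module Crest.Agent.R125.Reflexive). -/
theorem reflexive_of_equiv {X Y : Type*} [NormedAddCommGroup X] [NormedSpace ℝ X]
    [NormedAddCommGroup Y] [NormedSpace ℝ Y] (e : X ≃L[ℝ] Y) (h : Reflexive X) :
    Reflexive Y := by
  sorry

/-- Task B2 (module Crest.Agent.R125.Reflexive). -/
theorem reflexive_of_hilbert {H : Type*} [NormedAddCommGroup H] [InnerProductSpace ℝ H]
    [CompleteSpace H] : Reflexive H := by
  sorry

/-- Task B3 (module Crest.Agent.R125.Reflexive). -/
theorem reflexive_lp_two (X : ℕ → Type*) [∀ n, NormedAddCommGroup (X n)]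
    [∀ n, NormedSpace ℝ (X n)] (h : ∀ n, Reflexive (X n)) :
    Reflexive (lp X 2) := by
  sorry

/-- Task C (module Crest.Agent.R125.LpSum). -/
theorem propM_lp_two (X : ℕ → Type*) [∀ n, NormedAddCommGroup (X n)]
    [∀ n, NormedSpace ℝ (X n)] (h : ∀ n, PropM (X n)) :
    PropM (lp X 2) := by
  sorry

/-- Task C2 (module Crest.Agent.R125.LpSum). -/
theorem separable_lp_two (X : ℕ → Type*) [∀ n, NormedAddCommGroup (X n)]
    [∀ n, NormedSpace ℝ (X n)] (h : ∀ n, TopologicalSpace.SeparableSpace (X n)) :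
    TopologicalSpace.SeparableSpace (lp X 2) := by
  sorry

end Crest.Agent.R125.Blueprint
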